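import Crest.Agent.N265.K.PB

/-! # Task TOP-ZERO, helper: coordinate sections of a graph over a product of projective spaces -/

set_option autoImplicit false
noncomputable section
open MvPolynomial

namespace Crest.Agent.N265.Zr
open GM Sp

/-- keep the variables in `V` -/
def keep (V : Finset Var) : R →ₐ[ℂ] R := aeval fun u => if u ∈ V then X u else 0
/-- keep the coordinates in `V` -/
def resV (V : Finset Var) (p : Pt) : Pt := fun u => if u ∈ V then p u else 0

lemma eval_keep (V : Finset Var) (p : Pt) (r : R) : eval p (keep V r) = eval (resV V p) r := by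
  induction r using MvPolynomial.induction_on with
  | C c => simp [keep]
  | add p q hp hq => simp [hp, hq]
  | mul_X q v hp => by_cases h : v ∈ V <;> simp [hp, resV, h, keep] at *

lemma resV_resV {V W : Finset Var} (h : V ⊆ W) (p : Pt) : resV V (resV W p) = resV V p := by
  funext u
  by_cases hu : u ∈ V
  · simp [resV, hu, h hu]
  · simp [resV, hu]

lemma resV_resV' {V W : Finset Var} (h : V ⊆ W) (p : Pt) : resV W (resV V p) = resV V p := by
  funext u
  by_cases hu : u ∈ V
  · simp [resV, hu, h hu]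
  · simp [resV, hu]

lemma keep_sub (V T : Finset Var) (r : R) :
    keep V r - keep (V \ T) r ∈ Ideal.span ((fun u => (X u : R)) '' (T : Set Var)) := by
  induction r using MvPolynomial.induction_on with
  | C c => simp [keep]
  | add p q hp hq =>
    rw [map_add, map_add, add_sub_add_comm]
    exact add_mem hp hq
  | mul_X p v hp =>
    rw [map_mul, map_mul, show keep V p * keep V (X v) - keep (V \ T) p * keep (V \ T) (X v) =
      (keep V p - keep (V \ T) p) * keep V (X v) +
        keep (V \ T) p * (keep V (X v) - keep (V \ T) (X v)) by ring]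
    refine add_mem (Ideal.mul_mem_right _ _ hp) (Ideal.mul_mem_left _ _ ?_)
    by_cases h1 : v ∈ V
    · by_cases h2 : v ∈ T
      · simpa [keep, h1, h2] using Ideal.subset_span (s := (fun u => (X u : R)) '' (T : Set Var))
          ⟨v, h2, rfl⟩
      · simp [keep, h1, h2]
    · simp [keep, h1]

/-- a locally reduced hypersurface section -/
lemma cl_cut {Γ Y Z : Spc} (hY : Y.Sub Γ) (hZ : Z.Sub Y) {e : D} {f : R} (hf : Hmg e f)
    (he : e ∈ DS Γ.B) (hfZ : f ∈ Z.I) (hreg : ∀ a, f * a ∈ Y.I → a ∈ Y.I)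
    (hloc : ∀ z ∈ Γ.pts, ∀ g ∈ Z.I, ∃ r a, eval z r ≠ 0 ∧ r * g - f * a ∈ Y.I) :
    (1 - lb Γ (-e)) • cl Γ (O Y) = cl Γ (O Z) := by
  have oY := (red_O Y).on.mono hY
  have oZ := (red_O Z).on.mono (hZ.trans hY)
  have h0 : -e + e ∈ DS Γ.B := add_mem (neg_mem he) he
  have key : LocSES Γ ((O Y).shift (-e)) ((O Y).shift (-e + e)) ((O Z).shift (-e + e)) := by
    refine ⟨dvMul (O Y) f (-e) (-e + e), dvRes hZ, deg0_dvMul (O Y) hf (-e),
      (deg0_dvRes hZ).shift _, fun a => ?_, fun z hz => ?_⟩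
    · obtain ⟨a, rfl⟩ := Ideal.Quotient.mk_surjective (I := Y.I) a
      exact Ideal.Quotient.eq_zero_iff_mem.2 (Ideal.mul_mem_right _ _ hfZ : f * a ∈ Z.I)
    obtain ⟨r, hr, h1⟩ := exists_uniform (M := O Y) (N := LinearMap.ker (dvRes hZ))
      (LinearMap.range (LinearMap.lsmul R (O Y).M f)) (x := z) fun m hm => by
        obtain ⟨g, rfl⟩ := Ideal.Quotient.mk_surjective (I := Y.I) m
        obtain ⟨r, a, h1, h2⟩ := hloc z hz g (Ideal.Quotient.eq_zero_iff_mem.1 hm)
        exact ⟨r, h1, Ideal.Quotient.mk Y.I a, (Ideal.Quotient.eq.2 h2).symm⟩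
    refine ⟨r, hr, fun a ha => ?_, fun m hm => h1 m hm, fun c => ?_⟩
    · obtain ⟨a, rfl⟩ := Ideal.Quotient.mk_surjective (I := Y.I) a
      have h2 : f * a ∈ Y.I := Ideal.Quotient.eq_zero_iff_mem.1 ha
      exact Ideal.Quotient.eq_zero_iff_mem.2 (Ideal.mul_mem_left _ r (hreg a h2))
    · obtain ⟨c, rfl⟩ := Ideal.Quotient.mk_surjective (I := Z.I) c
      exact ⟨Ideal.Quotient.mk Y.I (r * c), rfl⟩
  have h1 := cl_locSES key (oY.shift (neg_mem he)) (oY.shift h0) (oZ.shift h0)
  rw [← sh_cl h0 oY, ← sh_cl h0 oZ, ← sh_cl (neg_mem he) oY, neg_add_cancel, sh_zero,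
    sh_zero] at h1
  rw [sub_smul, one_smul, lb_smul (neg_mem he), sub_eq_iff_eq_add']
  exact h1

/-- a chart of `Γ` at `z` in the variables `W` -/
structure Chart (Γ : Spc) (W : Finset Var) (s : R) (z : Pt) : Prop where
  ne : eval (resV W z) s ≠ 0
  red : ∀ g : R, ∃ (m : ℕ) (G : R), ∀ z' ∈ Γ.pts,
    eval (resV W z') s ^ m * eval z' g = eval (resV W z') G
  lift : ∀ p, eval (resV W p) s ≠ 0 → ∃ z' ∈ Γ.pts, resV W z' = resV W p

/-- the coordinate section -/
def sec (Γ : Spc) (T : Finset Var) : Spc :=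
  Γ.cut ((fun u => (X u : R)) '' (T : Set Var)) (by
    rintro _ ⟨u, -, rfl⟩
    exact ⟨_, Hmg.X u⟩)

lemma mem_sec {Γ : Spc} {T : Finset Var} {z : Pt} :
    z ∈ (sec Γ T).pts ↔ z ∈ Γ.pts ∧ ∀ u ∈ T, z u = 0 :=
  and_congr_right fun _ => ⟨fun h u hu => by simpa using h _ ⟨u, hu, rfl⟩, by
    rintro h _ ⟨u, hu, rfl⟩
    simpa using h u hu⟩

lemma sec_sub (Γ : Spc) (T : Finset Var) : (sec Γ T).Sub Γ := Γ.cut_sub _ _

lemma sec_empty (Γ : Spc) : sec Γ ∅ = Γ := Spc.ext rfl (Set.ext fun z => by simp [mem_sec])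

variable {Γ : Spc} {W T : Finset Var} {s : R} {z : Pt}

lemma Chart.keep_eq_zero (h : Chart Γ W s z) (hT : T ⊆ W) {G : R}
    (hG : ∀ z' ∈ (sec Γ T).pts, eval (resV W z') G = 0) : keep (W \ T) (s * G) = 0 := by
  refine MvPolynomial.funext fun p => ?_
  rw [eval_keep, map_mul, map_zero]
  by_cases h0 : eval (resV (W \ T) p) s = 0
  · rw [h0, zero_mul]
  have e := resV_resV' (Finset.sdiff_subset : W \ T ⊆ W) p
  obtain ⟨z', h1, h2⟩ := h.lift (resV (W \ T) p) (by rwa [e])
  rw [e] at h2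
  rw [← h2, hG z' (mem_sec.2 ⟨h1, fun u hu => ?_⟩), mul_zero]
  simpa [resV, hu, hT hu] using congrFun h2 u

lemma Chart.loc (h : Chart Γ W s z) (hT : T ⊆ W) {g : R} (hg : g ∈ (sec Γ T).I) :
    ∃ r, eval z r ≠ 0 ∧ r * g ∈ Γ.I ⊔ Ideal.span ((fun u => (X u : R)) '' (T : Set Var)) := by
  obtain ⟨m, G, hG⟩ := h.red g
  have h1 := h.keep_eq_zero hT (G := G) fun z' hz' => by
    rw [← hG z' (mem_sec.1 hz').1, hg z' hz', mul_zero]
  have h2 := keep_sub W T (s * G)
  rw [h1, sub_zero] at h2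
  refine ⟨keep W s ^ (m + 1), by rw [map_pow, eval_keep]; exact pow_ne_zero _ h.ne, ?_⟩
  rw [← sub_add_cancel (keep W s ^ (m + 1) * g) (keep W (s * G))]
  refine Submodule.add_mem_sup (fun z' hz' => ?_) h2
  rw [map_sub, map_mul, map_pow, eval_keep, eval_keep, map_mul, ← hG z' hz']
  ring

lemma Chart.reg (h : Chart Γ W s z) (hT : T ⊆ W) (hz : z ∈ (sec Γ T).pts) {v : Var} (hv : v ∈ W)
    (hvT : v ∉ T) {a : R} (ha : X v * a ∈ (sec Γ T).I) : eval z a = 0 := by
  obtain ⟨m, G, hG⟩ := h.red a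
  have h1 := h.keep_eq_zero hT (G := X v * G) fun z' hz' => by
    have := ha z' hz'
    rw [map_mul, eval_X] at this
    rw [map_mul, eval_X, ← hG z' (mem_sec.1 hz').1, resV, if_pos hv, mul_left_comm, this, mul_zero]
  have e : resV (W \ T) z = resV W z := by
    funext u
    by_cases hu : u ∈ T
    · simp [resV, hu, (mem_sec.1 hz).2 u hu]
    · simp [resV, hu]
  rw [map_mul, map_mul, mul_eq_zero, mul_eq_zero] at h1
  rcases h1 with h1 | h1 | h1
  · exact (h.ne (by rw [← e, ← eval_keep, h1, map_zero])).elim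
  · simp [keep, hv, hvT] at h1
  · have h2 := hG z (mem_sec.1 hz).1
    rw [← e, ← eval_keep _ _ G, h1, map_zero, e] at h2
    exact (mul_eq_zero.1 h2).resolve_left (pow_ne_zero _ h.ne)

/-- the Koszul formula for coordinate sections of a space with charts -/
theorem prod_smul_one {V : Finset Var} (hV : ∀ v ∈ V, v.1 ∈ Γ.B)
    (h : ∀ z ∈ Γ.pts, ∃ W s, V ⊆ W ∧ Chart Γ W s z) (T : Finset Var) (hT : T ⊆ V) :
    (∏ v ∈ T, (1 - lb Γ (-vdeg v))) • one Γ = cl Γ (O (sec Γ T)) := by
  induction T using Finset.induction_on with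
  | empty => rw [Finset.prod_empty, one_smul, sec_empty, one]
  | insert v T hv ih =>
    have hT' : T ⊆ V := (Finset.subset_insert v T).trans hT
    have hvV := hT (Finset.mem_insert_self v T)
    rw [Finset.prod_insert hv, mul_smul, ih hT']
    refine cl_cut (Z := sec Γ (insert v T)) (sec_sub Γ T) ⟨rfl, fun z hz => mem_sec.2 ⟨(mem_sec.1 hz).1, fun u hu =>
      (mem_sec.1 hz).2 u (Finset.mem_insert_of_mem hu)⟩⟩ (Hmg.X v) (vdeg_mem (hV v hvV))
      (fun z hz => by rw [eval_X]; exact (mem_sec.1 hz).2 v (Finset.mem_insert_self v T))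
      (fun a ha z hz => ?_) fun z hz g hg => ?_
    · obtain ⟨W, s, h1, h2⟩ := h z (mem_sec.1 hz).1
      exact h2.reg (hT'.trans h1) hz (h1 hvV) hv ha
    · obtain ⟨W, s, h1, h2⟩ := h z hz
      obtain ⟨r, hr, h3⟩ := h2.loc (hT.trans h1) hg
      have h4 : Γ.I ⊔ Ideal.span ((fun u => (X u : R)) '' ((insert v T : Finset Var) : Set Var)) ≤
          Ideal.span {(X v : R)} ⊔ (sec Γ T).I := by
        refine sup_le ((sec_sub Γ T).I_le.trans le_sup_right) (Ideal.span_le.2 ?_)
        rintro _ ⟨u, hu, rfl⟩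
        rcases Finset.mem_insert.1 hu with rfl | hu
        · exact Submodule.mem_sup_left (Ideal.mem_span_singleton_self _)
        · exact Submodule.mem_sup_right fun z hz => by
            rw [eval_X]
            exact (mem_sec.1 hz).2 u hu
      obtain ⟨a, c, hc, e⟩ := Ideal.mem_span_singleton_sup.1 (h4 h3)
      exact ⟨r, a, hr, by rw [← e, mul_comm, add_sub_cancel_left]; exact hc⟩

lemma cross_of_rk_one {ι : Type} [Fintype ι] {L : Submodule ℂ (ι → ℂ)}
    (h : Module.finrank ℂ L = 1) {u v : ι → ℂ} (hu : u ∈ L) (hv : v ∈ L) (i j : ι) :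
    u i * v j = u j * v i := by
  obtain ⟨⟨e, he⟩, -, h1⟩ := finrank_eq_one_iff'.1 h
  obtain ⟨a, ha⟩ := h1 ⟨u, hu⟩
  obtain ⟨c, hc⟩ := h1 ⟨v, hv⟩
  have ha' : ∀ k, u k = a * e k := fun k => (congrFun (congrArg Subtype.val ha) k).symm
  have hc' : ∀ k, v k = c * e k := fun k => (congrFun (congrArg Subtype.val hc) k).symm
  simp only [ha', hc']
  ring

/-- the graph of a line bundle over a product of projective spaces has charts -/
theorem exists_chart {B : Finset ℕ} {V : Finset Var} (hV : ∀ v ∈ V, v.1 ∈ B)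
    {A : Bun (Spc.full B V)} {δ b y} (hΓ : IsPSub Γ A δ b y) (hA : A.Rk 1) (hz : z ∈ Γ.pts) :
    ∃ W s, V ⊆ W ∧ Chart Γ W s z := by
  classical
  have hres : ∀ z' ∈ Γ.pts, resV V z' = restr B z' := fun z' hz' => by
    funext u
    by_cases hu : u ∈ V
    · simp [resV, restr, hu, hV u hu]
    · rw [resV, if_neg hu]
      by_contra h0
      exact hu (((hΓ.mem z').1 hz').1.2 u (Ne.symm h0)).1
  obtain ⟨hx, hy, hy0, -⟩ := (hΓ.mem z).1 hz
  obtain ⟨r, P, hr, hP⟩ := A.alg _ hx
  obtain ⟨i₀, hi₀⟩ := Function.ne_iff.1 hy0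
  have hi₀' : z (y i₀) ≠ 0 := hi₀
  obtain ⟨k, hk⟩ : ∃ k, eval (restr B z) (P i₀ k) ≠ 0 := by
    by_contra h0
    push Not at h0
    have := congrFun ((hP _ hx).2 _ hy) i₀
    rw [mev_apply, Finset.sum_eq_zero fun k _ => by
      rw [show eval (restr (Spc.full B V).B z) (P i₀ k) = 0 from h0 k, zero_mul]] at this
    exact mul_ne_zero hr hi₀' this.symm
  obtain ⟨-, -, ρ, -, hρ, hρ'⟩ := exists_rel_poly (B := B) hx.1
  have hcol : ∀ x ∈ (Spc.full B V).pts, (fun i => eval x (P i k)) ∈ A.L x := fun x hx => by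
    have := (hP x hx).1 (Pi.single k 1)
    convert this using 1
    funext i
    rw [mev_apply, Finset.sum_eq_single k (fun j _ hj => by simp [hj]) (by simp)]
    simp
  have hsub : V ⊆ insert (y i₀) V := Finset.subset_insert _ _
  have hs : ∀ (p : Pt) (q : R), eval (resV (insert (y i₀) V) p) (keep V q * X (y i₀)) =
      eval (resV V p) q * p (y i₀) := fun p q => by
    rw [map_mul, eval_keep, resV_resV hsub, eval_X, resV, if_pos (Finset.mem_insert_self _ _)]
  refine ⟨insert (y i₀) V, keep V (ρ * P i₀ k) * X (y i₀), hsub, ?_, fun g => ?_, fun p hp => ?_⟩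
  · rw [hs, hres z hz, map_mul]
    exact mul_ne_zero (mul_ne_zero hρ hk) hi₀'
  · set s := keep V (ρ * P i₀ k) * X (y i₀) with hsd
    have hvar : ∀ v, ∃ H : R, ∀ z' ∈ Γ.pts, eval (resV (insert (y i₀) V) z') s * z' v =
        eval (resV (insert (y i₀) V) z') H := by
      intro v
      by_cases h1 : v ∈ insert (y i₀) V
      · exact ⟨s * X v, fun z' _ => by rw [map_mul (eval _) s, eval_X, resV, if_pos h1]⟩
      by_cases h2 : v ∈ Set.range y
      · obtain ⟨j, rfl⟩ := h2
        refine ⟨keep V (ρ * P j k) * X (y i₀) * X (y i₀), fun z' hz' => ?_⟩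
        obtain ⟨hx', hy', -, -⟩ := (hΓ.mem z').1 hz'
        have h3 := cross_of_rk_one (hA _ hx') (hcol _ hx') hy' i₀ j
        rw [map_mul (eval _) (keep V (ρ * P j k) * X (y i₀)), hsd, hs, hs, eval_X, resV,
          if_pos (Finset.mem_insert_self _ _), hres z' hz', map_mul, map_mul]
        change eval (restr B z') (P i₀ k) * z' (y j) = eval (restr B z') (P j k) * z' (y i₀) at h3
        linear_combination eval (restr B z') ρ * z' (y i₀) * h3
      · refine ⟨0, fun z' hz' => ?_⟩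
        obtain ⟨hx', -, -, h3⟩ := (hΓ.mem z').1 hz'
        have h4 : z' v = 0 := by
          by_contra h0
          have h5 := (h3 v h0).resolve_right h2
          exact h1 (hsub (hx'.2 v (restr_ne.2 ⟨h5, h0⟩)).1)
        rw [h4, mul_zero, map_zero]
    induction g using MvPolynomial.induction_on with
    | C c => exact ⟨0, C c, fun z' _ => by simp⟩
    | add p q hp hq =>
      obtain ⟨m, G, hG⟩ := hp
      obtain ⟨n, H, hH⟩ := hq
      refine ⟨m + n, s ^ n * G + s ^ m * H, fun z' hz' => ?_⟩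
      simp only [map_add, map_mul (eval _) (s ^ _), map_pow, ← hG z' hz', ← hH z' hz']
      ring
    | mul_X p v hp =>
      obtain ⟨m, G, hG⟩ := hp
      obtain ⟨H, hH⟩ := hvar v
      refine ⟨m + 1, G * H, fun z' hz' => ?_⟩
      rw [map_mul (eval _) G, ← hG z' hz', ← hH z' hz', map_mul (eval z'), eval_X]
      ring
  · rw [hs, map_mul] at hp
    have h1 := left_ne_zero_of_mul (left_ne_zero_of_mul hp)
    have h2 := right_ne_zero_of_mul (left_ne_zero_of_mul hp)
    have h3 := right_ne_zero_of_mul hp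
    have hx' : resV V p ∈ (Spc.full B V).pts := ⟨hρ' _ h1, fun v hv => by
      have : v ∈ V := by
        by_contra h0
        exact hv (if_neg h0)
      exact ⟨this, hV v this⟩⟩
    have hval : ((p (y i₀) / eval (resV V p) (P i₀ k)) • fun i => eval (resV V p) (P i k)) i₀ =
        p (y i₀) := div_mul_cancel₀ _ h2
    obtain ⟨z', hz', e1, e2⟩ := hΓ.exists_pt hx'
      ((A.L _).smul_mem (p (y i₀) / eval (resV V p) (P i₀ k)) (hcol _ hx'))
      fun h0 => h3 (by rw [← hval, h0]; rfl)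
    refine ⟨z', hz', funext fun u => ?_⟩
    unfold resV
    split_ifs with hu
    · rcases Finset.mem_insert.1 hu with rfl | hu
      · exact (congrFun e2 i₀).trans hval
      · have := congrFun ((hres z' hz').trans e1) u
        simpa [resV, hu] using this
    · rfl

end Crest.Agent.N265.Zr
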