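import Crest.Agent.N265.Top.Model
import Crest.Agent.N265.Top.Zero0
import Crest.Agent.N265.K.Wt

/-! # Task TOP-ZERO: generic lemmas producing the fields of `NestK`, `Model.cases`, `Eval` -/

set_option autoImplicit false
noncomputable section
open Polynomial

namespace Crest.Agent.N265
open Bun
variable {X Y P Z N : Spc}

lemma ext_res_eq {A : Bun X} {r : ℕ} (h : A.Rk r) (φ : (Op X)[X]) :
    Ext.res (chp A r) r φ = Formal.res (chp A r) φ := by
  rcases subsingleton_or_nontrivial (Op X) with h0 | h0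
  · exact Subsingleton.elim _ _
  · rw [Ext.res, Formal.res, chp_natDegree h]
/-- pushing along `N → Z ⊂ P → X` -/
lemma push_chain (pP : Proj P X) (hZ : Z.Sub P) {e : Op P} (hz : push Z P (one Z) = e • one P)
    (q : Proj N Z) (hq : push N Z (one N) = one Z) (u : Op P) :
    push N X (Op.pull (q.trans hZ.proj) u • one N) = push P X ((u * e) • one P) := by
  rw [← push_push (q.trans hZ.proj) pP, push_smul, ← push_push q hZ.proj, hq, hz, mul_smul]
lemma pull_eval₂ (q : Proj N P) (p : Proj P X) (π : Proj N X) (φ : (Op X)[X]) (u : Op P) :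
    φ.eval₂ (Op.pull π) (Op.pull q u) = Op.pull q (φ.eval₂ (Op.pull p) u) := by
  rw [Polynomial.hom_eval₂]
  congr 1
  exact RingHom.ext fun v => (Op.pull_pull q p v).symm
lemma eu_lb_mul (p : Proj P X) {E : Bun P} {U : Bun X} {d : D}
    (hE : E.kl = lbK P d * K.pull p U.kl) : eu E = (Lam U).eval₂ (Op.pull p) (lb P (-d)) := by
  rw [eu_tens (A := U.pull p) (l := line P d) (rk_line d) (hE.trans (by rw [K.pull_kl]; rfl)),
    Lam_pull, eval_map, lb, ← K.dual_lbK]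
  rfl
lemma eval₂_reflect_lb (p : Proj P X) (φ : (Op X)[X]) {n : ℕ} (h : φ.natDegree ≤ n) (d : D) :
    (φ.reflect n).eval₂ (Op.pull p) (lb P (-d)) * lb P d ^ n = φ.eval₂ (Op.pull p) (lb P d) :=
  let _ : Invertible (lb P d) := ⟨lb P (-d), by rw [mul_comm, lb_mul_neg], lb_mul_neg d⟩
  Polynomial.eval₂_reflect_mul_pow (Op.pull p) (lb P d) n φ h

section
variable {A : Bun X} {δ : D} {b : ℕ} {y : A.ι → Var}
/-- lines `ℓ ⊂ B` killed by `B → U` -/
theorem z1_of {U B l₁ : Bun X} {r : ℕ} (hU : U.Rk (r + 1)) (hB : B.Rk r) (hl : l₁.Rk 1)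
    (hdet : (U.det _ hU).kl = l₁.kl * (B.det _ hB).kl)
    (hP : IsPSub P A δ b y) (hA : A.kl = B.kl) (hrA : A.Rk r) (hZ : Z.Sub P) (E : Bun P)
    (hE : E.kl = lbK P (eB b - δ) * K.pull hP.proj U.kl) (hz : push Z P (one Z) = eu E • one P)
    (q : Proj N Z) (hq : push N Z (one N) = one Z) (π : Proj N X) (l : Bun N)
    (hlN : l.kl = lbK N (δ - eB b)) (φ : (Op X)[X]) :
    push N X ((φ.eval₂ (Op.pull π) (op N l.kl) * op N l.kl * Op.pull π (op _ l₁.kl)) • one N)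
      = Formal.res (chp B r) (φ * chp U (r + 1)) • one X := by
  have _ := hl
  have hd : δ - eB b ∈ DS P.B := sub_mem (DS_mono hP.proj.sub hP.hδ) hP.b_mem
  have h1 : op N l.kl = Op.pull (q.trans hZ.proj) (lb P (δ - eB b)) := by
    rw [Op.pull_lb _ hd, hlN]; rfl
  have h2 := eu_lb_mul hP.proj hE
  rw [neg_sub] at h2
  rw [h1, pull_eval₂ _ hP.proj, ← Op.pull_pull (q.trans hZ.proj) hP.proj, ← map_mul, ← map_mul,
    push_chain hP.proj hZ hz q hq, h2]
  rcases r with _ | r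
  · have h0 : P.pts = ∅ := Set.eq_empty_of_forall_notMem fun z hz => by
      obtain ⟨h3, h4, h5, -⟩ := (hP.mem z).1 hz
      rw [Submodule.finrank_eq_zero.1 (hrA _ h3)] at h4
      exact h5 h4
    have := G.subsingleton_of_empty h0
    rw [Subsingleton.elim (_ • one P) 0, map_zero, chp_rk_zero hB,
      Formal.res_of_dvd monic_one (one_dvd _), zero_smul]
  have h3 := hP.push_res hrA (φ * C (op _ l₁.kl) * Lam U)
  rw [eval₂_mul, eval₂_mul, eval₂_C, chp_congr hA, ext_res_eq hB, chp_coeff_zero hB,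
    ← Formal.res_C_mul] at h3
  rw [chp_eq hU, hdet, map_mul (op X)]
  convert h3 using 3
  · ring
  · simp only [map_mul, map_neg, map_pow, map_one]
    ring
/-- quotient lines `U → ℓ` killing `B` -/
theorem z2_of {U B : Bun X} {r : ℕ} (hU : U.Rk (r + 1)) (hB : B.Rk r)
    (hP : IsPSub P A δ b y) (hA : A.kl = K.dual X U.kl) (hrA : A.Rk (r + 1)) (hZ : Z.Sub P)
    (E : Bun P) (hE : E.kl = lbK P (eB b - δ) * K.pull hP.proj (K.dual X B.kl))
    (hz : push Z P (one Z) = eu E • one P) (q : Proj N Z) (hq : push N Z (one N) = one Z)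
    (π : Proj N X) (l : Bun N) (hlN : l.kl = lbK N (eB b - δ)) :
    (chp U (r + 1)).eval₂ (Op.pull π) (op N l.kl) = 0 ∧ ∀ φ : (Op X)[X],
      push N X (φ.eval₂ (Op.pull π) (op N l.kl) • one N)
        = Formal.res (chp U (r + 1)) (φ * chp B r) • one X := by
  have hd : eB b - δ ∈ DS P.B := sub_mem hP.b_mem (DS_mono hP.proj.sub hP.hδ)
  have h1 : op N l.kl = Op.pull (q.trans hZ.proj) (lb P (eB b - δ)) := by
    rw [Op.pull_lb _ hd, hlN]; rfl
  refine ⟨?_, fun φ => ?_⟩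
  · have h2 := hP.chp_root hrA
    have h3 := eval₂_reflect_lb hP.proj (Lam U) (Lam_natDegree_le hU) (eB b - δ)
    rw [← chp_dual hU hA, neg_sub, h2, zero_mul] at h3
    rw [h1, pull_eval₂ _ hP.proj, chp_eq hU, eval₂_mul, ← h3, mul_zero, map_zero]
  obtain ⟨B', hB', -⟩ := B.exists_dual
  have h2 := eu_lb_mul hP.proj (hB' ▸ hE)
  have h3 := eval₂_reflect_lb hP.proj (chp B r) (chp_natDegree_le hB) (eB b - δ)
  rw [← Lam_dual hB hB', ← h2] at h3
  have h4 := hP.push_res' hrA (φ * chp B r)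
  rw [Lam_dual hU hA, reflect_reflect, ext_res_eq hU, eval₂_mul, ← h3, mul_assoc, mul_assoc,
    ← mul_pow, ← lb_add, sub_add_sub_cancel, sub_self, lb_zero, one_pow, mul_one] at h4
  rw [h1, pull_eval₂ _ hP.proj, push_chain hP.proj hZ hz q hq, h4]
end

/-- the vanishing of `Model.cases` -/
theorem kill_of {Ob C l : Bun X} (hl : l.Rk 1) {h0 h1 : ℕ} (h : h0 ≤ h1 + 1)
    (hOb : Ob.kl = h1 • K.dual X l.kl + C.kl) (hn : (1 - op X l.kl) ^ h0 = 0) :
    (1 - op X l.kl) * eu Ob = 0 := by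
  obtain ⟨l', hl', hr⟩ := l.exists_dual
  have h2 : eu l' = 1 - op X l.kl := by
    rw [eu, Lam_rk_one fun x hx => (hr x hx).trans (hl x hx), hl', K.dual_dual]
    simp
  have key : ∀ (n : ℕ) (C : Bun X), Ob.kl = n • l'.kl + C.kl →
      eu Ob = (1 - op X l.kl) ^ n * eu C := by
    intro n
    induction n with
    | zero => intro C h; rw [pow_zero, one_mul, eu_congr (by simpa using h)]
    | succ n ih =>
      intro C h
      rw [ih (l'.sum C) (by rw [h, kl_sum, succ_nsmul, add_assoc]), eu_add (kl_sum l' C), h2,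
        pow_succ, mul_assoc]
  obtain ⟨k, hk⟩ := Nat.exists_eq_add_of_le h
  rw [key h1 C (hl' ▸ hOb), ← mul_assoc, ← pow_succ', hk, pow_add, hn, zero_mul, zero_mul]
/-- hyperplane sections of a graph over a product of two projective spaces
(zero-locus lemma on `Γ`, or induction on the number of variables with `jacobian`) -/
theorem top_of_graph {b₁ b₂ : ℕ} (hb : b₁ ≠ b₂) {V : Finset Var} {w : ℕ → ℤ}
    (hV : ∀ v ∈ V, v.1 = b₁ ∨ v.1 = b₂) {n₁ n₂ : ℕ}
    (h₁ : (V.filter (·.1 = b₁)).card = n₁ + 1) (h₂ : (V.filter (·.1 = b₂)).card = n₂ + 1)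
    {Γ : Spc} {A : Bun (Spc.full {b₁, b₂} V)} {δ b y} (hΓ : IsPSub Γ A δ b y) (hA : A.Rk 1)
    (hw : Γ.TTriv w) : ∃ P : Spc, P.Sub Γ ∧ P.IsPt w ∧
      ((1 - lb Γ (-(eB b₁ + w b₁ • eT))) ^ n₁ * (1 - lb Γ (-(eB b₂ + w b₂ • eT))) ^ n₂) • one Γ =
        incl P Γ (one P) := by
  classical
  have hVB : ∀ v ∈ V, v.1 ∈ ({b₁, b₂} : Finset ℕ) := fun v hv => by simpa using hV v hv
  obtain ⟨v₁, hv₁⟩ := Finset.card_pos.1 (n₁.succ_pos.trans_eq h₁.symm)
  obtain ⟨v₂, hv₂⟩ := Finset.card_pos.1 (n₂.succ_pos.trans_eq h₂.symm)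
  obtain ⟨m₁, e₁⟩ := Finset.mem_filter.1 hv₁
  obtain ⟨m₂, e₂⟩ := Finset.mem_filter.1 hv₂
  have lift : ∀ W : Finset Var, W ⊆ V → v₁ ∈ W → v₂ ∈ W →
      ∃ z ∈ Γ.pts, ∀ v : Var, v.1 ∈ ({b₁, b₂} : Finset ℕ) → z v = if v ∈ W then 1 else 0 := by
    intro W hW k₁ k₂
    have hx : (fun v => if v ∈ W then 1 else 0 : Pt) ∈ (Spc.full {b₁, b₂} V).pts := by
      refine ⟨fun c hc => ?_, fun v hv => ?_⟩
      · rcases Finset.mem_insert.1 hc with rfl | hc
        · exact ⟨v₁, e₁, by simp [k₁]⟩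
        · exact ⟨v₂, e₂.trans (Finset.mem_singleton.1 hc).symm, by simp [k₂]⟩
      · have : v ∈ W := by simpa using hv
        exact ⟨hW this, hVB v (hW this)⟩
    obtain ⟨⟨u, hu⟩, hu0, -⟩ := finrank_eq_one_iff'.1 (hA _ hx)
    obtain ⟨z, hz, e, -⟩ := hΓ.exists_pt hx hu fun h0 => hu0 (Subtype.ext h0)
    exact ⟨z, hz, fun v hv => by simpa [restr, hv] using congrFun e v⟩
  have hdeg : ∀ v ∈ V, vdeg v = eB v.1 + w v.1 • eT := fun v hv => by
    obtain ⟨z, hz, e⟩ := lift V subset_rfl m₁ m₂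
    rw [vdeg, hw z hz v (by simp [e v (hVB v hv), hv])]
  have hdis : Disjoint ((V.filter (·.1 = b₁)).erase v₁) ((V.filter (·.1 = b₂)).erase v₂) :=
    Finset.disjoint_left.2 fun v k₁ k₂ => hb
      ((Finset.mem_filter.1 (Finset.mem_of_mem_erase k₁)).2.symm.trans
        (Finset.mem_filter.1 (Finset.mem_of_mem_erase k₂)).2)
  set T := (V.filter (·.1 = b₁)).erase v₁ ∪ (V.filter (·.1 = b₂)).erase v₂ with hT
  have hTV : T ⊆ V := Finset.union_subset
    ((Finset.erase_subset _ _).trans (Finset.filter_subset _ _))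
    ((Finset.erase_subset _ _).trans (Finset.filter_subset _ _))
  have hmemT : ∀ v ∈ V, v ≠ v₁ → v ≠ v₂ → v ∈ T := fun v hv k₁ k₂ => by
    rcases hV v hv with k | k <;> simp [hT, hv, k, k₁, k₂]
  have hp := Zr.prod_smul_one (Γ := Γ) (V := V) (fun v hv => hΓ.proj.sub (hVB v hv))
    (fun z hz => Zr.exists_chart hVB hΓ hA hz) T hTV
  have hpow : ∀ (c : ℕ) (u : Var) (n : ℕ), u ∈ V.filter (·.1 = c) →
      (V.filter (·.1 = c)).card = n + 1 →
      ∏ v ∈ (V.filter (·.1 = c)).erase u, (1 - lb Γ (-vdeg v)) =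
        (1 - lb Γ (-(eB c + w c • eT))) ^ n := fun c u n hu hn => by
    rw [Finset.prod_congr rfl (g := fun _ => 1 - lb Γ (-(eB c + w c • eT))) fun v hv => by
      obtain ⟨k₁, k₂⟩ := Finset.mem_filter.1 (Finset.mem_of_mem_erase hv)
      rw [hdeg v k₁, k₂], Finset.prod_const, Finset.card_erase_of_mem hu, hn, Nat.add_sub_cancel]
  rw [hT, Finset.prod_union hdis, hpow _ _ _ hv₁ h₁, hpow _ _ _ hv₂ h₂, ← hT] at hp
  refine ⟨Zr.sec Γ T, Zr.sec_sub Γ T, ⟨hw.sub (Zr.sec_sub Γ T), ?_⟩,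
    hp.trans (incl_cl (Zr.sec_sub Γ T) (GM.red_O _).on).symm⟩
  obtain ⟨z, hz, e⟩ := lift {v₁, v₂} (by simp [Finset.insert_subset_iff, m₁, m₂]) (by simp)
    (by simp)
  refine ⟨z, Zr.mem_sec.2 ⟨hz, fun u hu => ?_⟩, fun z' hz' => ?_⟩
  · rw [e u (hVB u (hTV hu)), if_neg]
    intro k
    rcases Finset.mem_insert.1 k with rfl | k
    · simp [hT, e₁, hb] at hu
    · rw [Finset.mem_singleton.1 k] at hu
      simp [hT, e₂, hb.symm] at hu
  obtain ⟨k₁, k₂⟩ := Zr.mem_sec.1 hz'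
  obtain ⟨x₁, y₁, -, s₁⟩ := (hΓ.mem z').1 k₁
  have hzero : ∀ v : Var, v.1 ∈ ({b₁, b₂} : Finset ℕ) → v ≠ v₁ → v ≠ v₂ → z' v = 0 := by
    intro v hv j₁ j₂
    by_contra h0
    exact h0 (k₂ v (hmemT v (x₁.2 v (Sp.restr_ne.2 ⟨hv, h0⟩)).1 j₁ j₂))
  have hbn : b ∉ ({b₁, b₂} : Finset ℕ) := hΓ.new
  let c : ℕ → ℂ := fun j => if j = b₁ then z' v₁ else if j = b₂ then z' v₂ else 1
  have hc : ∀ v : Var, v.1 ∈ ({b₁, b₂} : Finset ℕ) → z' v = c v.1 * z v := fun v hv => by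
    rw [e v hv]
    by_cases j₁ : v = v₁
    · simp [c, j₁, e₁]
    by_cases j₂ : v = v₂
    · simp [c, j₂, e₂, hb.symm]
    · simp [j₁, j₂, hzero v hv j₁ j₂]
  have hc0 : ∀ j ∈ Γ.B, c j ≠ 0 := fun j hj => by
    by_cases hj' : j ∈ ({b₁, b₂} : Finset ℕ)
    · obtain ⟨v, rfl, hv⟩ := Γ.rel z' k₁ j hj
      exact left_ne_zero_of_mul (hc v hj' ▸ hv)
    · simp only [Finset.mem_insert, Finset.mem_singleton, not_or] at hj'
      simp [c, hj'.1, hj'.2]
  have hcb : c b = 1 := by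
    simp only [Finset.mem_insert, Finset.mem_singleton, not_or] at hbn
    simp [c, hbn.1, hbn.2]
  obtain ⟨-, y₂, n₂', s₂⟩ := (hΓ.mem _).1 (Sp.bsc_mem hz hc0)
  have er : restr (Spc.full {b₁, b₂} V).B (Sp.bsc c z) = restr (Spc.full {b₁, b₂} V).B z' := by
    funext v
    by_cases hv : v.1 ∈ ({b₁, b₂} : Finset ℕ)
    · exact (if_pos hv).trans ((hc v hv).symm.trans (if_pos hv).symm)
    · exact (if_neg hv).trans (if_neg hv).symm
  have ey : ∀ i, Sp.bsc c z (y i) = z (y i) := fun i => by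
    rw [Sp.bsc_apply, hΓ.blk, hcb, one_mul]
  rw [er] at y₂
  obtain ⟨i₀, hi₀⟩ := Function.ne_iff.1 n₂'
  have hi₀' : z (y i₀) ≠ 0 := ey i₀ ▸ hi₀
  refine ⟨fun j => if j = b then z' (y i₀) / z (y i₀) else c j, fun v => ?_⟩
  beta_reduce
  by_cases hv : v.1 ∈ ({b₁, b₂} : Finset ℕ)
  · rw [if_neg fun k : v.1 = b => hbn (k ▸ hv), hc v hv]
  by_cases hy : v ∈ Set.range y
  · obtain ⟨i, rfl⟩ := hy
    have := Zr.cross_of_rk_one (hA _ x₁) y₁ y₂ i i₀
    simp only [ey] at this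
    rw [if_pos (hΓ.blk i)]
    field_simp
    linear_combination this
  · have j₁ : z' v = 0 := by_contra fun h0 => (s₁ v h0).elim hv hy
    have j₂ : z v = 0 := by_contra fun h0 => (((hΓ.mem z).1 hz).2.2.2 v h0).elim hv hy
    rw [j₁, j₂, mul_zero]
/-- transport along a graph projection -/
theorem push_smul_one (q : Proj Y X) (hq : push Y X (one Y) = one X) (u : Op X) :
    push Y X (Op.pull q u • one Y) = u • one X := by rw [push_smul, hq]

end Crest.Agent.N265
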