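import Crest.Agent.N265.Top.Lev

/-! # Task TOP-EVAL: the surviving term, and setting `t = 1` -/

set_option autoImplicit false
noncomputable section
open Polynomial

namespace Crest.Agent.N265.Top
open Bun Formal
variable {S : Spc}

lemma top_term {A : Type*} [CommRing A] {x y : A} {n h1 h2 : ℕ} (hx : x ^ (n + 1 + h1 + 1) = 0)
    (hy : y ^ (n + 1 + h2 + 1) = 0) :
    (x + y - x * y) ^ (2 * n) * (x ^ (h1 + 1) * y ^ (h2 + 1)) =
      ((2 * n).choose n : A) * (x ^ (n + 1 + h1) * y ^ (n + 1 + h2)) := by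
  rw [show x + y - x * y = x * (1 - y) + y by ring, add_pow, Finset.sum_mul,
    Finset.sum_eq_single_of_mem n (Finset.mem_range.2 (by omega))]
  · obtain ⟨g, hg⟩ : y ∣ 1 - (1 - y) ^ n := by simpa using sub_dvd_pow_sub_pow 1 (1 - y) n
    rw [show 2 * n - n = n by omega, mul_pow, show (1 - y) ^ n = 1 - y * g by rw [← hg]; ring]
    linear_combination -(x ^ n * g * ((2 * n).choose n : A) * x ^ (h1 + 1)) * hy
  · intro m hm hne
    have hm' := Finset.mem_range.1 hm
    rcases lt_or_gt_of_ne hne with h | h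
    · obtain ⟨j, hj⟩ : ∃ j, 2 * n - m = n + 1 + j := ⟨2 * n - m - (n + 1), by omega⟩
      rw [hj]
      linear_combination ((x * (1 - y)) ^ m * ((2 * n).choose m : A) * x ^ (h1 + 1) * y ^ j) * hy
    · obtain ⟨j, rfl⟩ : ∃ j, m = n + 1 + j := ⟨m - (n + 1), by omega⟩
      rw [mul_pow]
      linear_combination ((1 - y) ^ (n + 1 + j) * y ^ (2 * n - (n + 1 + j)) *
        ((2 * n).choose (n + 1 + j) : A) * x ^ j * y ^ (h2 + 1)) * hx

lemma eu_nsmul {X : Spc} {A B C E : Bun X} (m n : ℕ) (h : A.kl = B.kl + m • C.kl + n • E.kl) :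
    eu A = eu B * eu C ^ m * eu E ^ n := by
  obtain ⟨Φ, hΦ⟩ := exists_LamK X
  have : Lam A = Lam B * Lam C ^ m * Lam E ^ n := by
    apply Polynomial.coe_injective
    simp only [Polynomial.coe_mul, Polynomial.coe_pow, ← hΦ, h, ofAdd_add, ofAdd_nsmul, map_mul,
      map_pow]
  simp [eu, this]

lemma eu_rk_one {X : Spc} {A : Bun X} (h : A.Rk 1) : eu A = 1 - op X (K.dual X A.kl) := by
  simp [eu, Lam_rk_one h]

lemma tO_mul (X : Spc) : tO X 1 * tO X (-1) = 1 := by
  rw [tO, tO, ← lb_add, ← add_smul]; simp [lb_zero]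

lemma tO_eq (X : Spc) (k : ℤ) : tO X k = tHom X (LaurentPolynomial.T k) := (tHom_T k).symm

lemma eu_Ob {x : Piece S} {N h1 h2 : ℕ} {d : K x.F} {P : Spc} {hP : P.Sub x.F}
    (h : Eval x N h1 h2 d P hP) : eu x.Ob =
      (1 - op _ x.l1.kl) ^ h1 * (1 - op _ x.l2.kl * tO x.F (-1)) ^ h2 := by
  obtain ⟨A, hA, rA⟩ := x.l1.exists_dual
  obtain ⟨B, hB, rB⟩ := x.l2.exists_dual
  have rA' : A.Rk 1 := fun y hy => (rA y hy).trans (x.rl1 y hy)
  have rB' : (B.tens (line x.F ((1 : ℤ) • eT))).Rk 1 :=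
    Rk.tens (m := 1) (fun y hy => (rB y hy).trans (x.rl2 y hy)) (rk_line _)
  obtain ⟨Φ, hΦ⟩ := exists_LamK x.F
  have : Lam x.Ob = Lam A ^ h1 * Lam (B.tens (line x.F ((1 : ℤ) • eT))) ^ h2 := by
    apply Polynomial.coe_injective
    simp only [Polynomial.coe_mul, Polynomial.coe_pow, ← hΦ, ← map_pow, ← map_mul, ← ofAdd_nsmul,
      ← ofAdd_add]
    rw [h.ob, kl_tens, hA, hB]; rfl
  have e1 := eu_rk_one rA'
  have e2 := eu_rk_one rB'
  rw [hA, K.dual_dual] at e1
  rw [kl_tens, hB, map_mul, K.dual_dual, ← lbK, K.dual_lbK, map_mul, ← neg_smul] at e2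
  rw [eu, this, eval_mul, eval_pow, eval_pow, ← eu, ← eu, e1, e2]
  rfl

/-- value of the surviving term: `c₀ t^e / (1 - t)^(2N)` with `c₀` depending on `N` only -/
theorem eval_value {x : Piece S} (hk : x.k1 = 0) {N h1 h2 : ℕ} (hN : 1 ≤ N) {d : K x.F} {P : Spc}
    {hP : P.Sub x.F} (h : Eval x N h1 h2 d P hP) (p : Pt) (δ : Oh x.F)
    (hδ : δ * ((x.lev p).a1 - (x.lev p).a2) = 1) :
    ∃ e : ℤ, ((1 - LaurentPolynomial.T 1 : La) ^ (2 * N)) • (x.lev p).L
      (1800 * ((x.lev p).l0 * (x.lev p).h * δ) ^ 2 * (x.lev p).P.eval (x.lev p).a1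
        * (x.lev p).P.eval (x.lev p).a2) =
      toMh La (((-1) ^ (N + 1) * 1800 * (2 * N - 2).choose (N - 1) : ℤ) • LaurentPolynomial.T e) := by
  have _ := hk
  obtain ⟨n, rfl⟩ : ∃ n, N = n + 1 := ⟨N - 1, by omega⟩
  obtain ⟨e, he⟩ := h.hd
  refine ⟨2 * e + (n + 2), ?_⟩
  rw [show 2 * (n + 1) - 2 = 2 * n by omega, Nat.add_sub_cancel]
  obtain ⟨a1, ha1⟩ : ∃ a1, a1 = op _ x.l1.kl := ⟨_, rfl⟩
  obtain ⟨a2, ha2⟩ : ∃ a2, a2 = op _ x.l2.kl := ⟨_, rfl⟩
  obtain ⟨t, ht⟩ : ∃ t, t = tO x.F 1 := ⟨_, rfl⟩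
  obtain ⟨i, hi⟩ : ∃ i, i = tO x.F (-1) := ⟨_, rfl⟩
  have hti : t * i = 1 := by rw [ht, hi, tO_mul]
  have n1 := h.nil1
  have n2 := h.nil2
  have hX := h.X0
  have hO := eu_Ob h
  have htop := h.top
  rw [← ha1] at n1 hX hO htop
  rw [← ha2, ← hi] at n2 hX hO htop
  obtain ⟨τ, hτ⟩ : ∃ τ, τ = (1 - a1) ^ (n + 1 + h1) * (1 - a2 * i) ^ (n + 1 + h2) := ⟨_, rfl⟩
  rw [← hτ] at htop
  have t1 : a1 * τ = τ := by rw [hτ]; linear_combination -(1 - a2 * i) ^ (n + 1 + h2) * n1
  have t2 : a2 * τ = t * τ := by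
    rw [hτ]
    linear_combination -(t * (1 - a1) ^ (n + 1 + h1)) * n2
      - (a2 * (1 - a1) ^ (n + 1 + h1) * (1 - a2 * i) ^ (n + 1 + h2)) * hti
  have tt := top_term n1 n2
  rw [← hτ, show 1 - a1 + (1 - a2 * i) - (1 - a1) * (1 - a2 * i) = 1 - a1 * a2 * i by ring] at tt
  rw [show 2 * (n + 1) - 2 = 2 * n by omega] at hX
  -- reduction on `F`
  have key : (1800 * ((x.lev p).l0 * (x.lev p).h * δ) ^ 2 * (x.lev p).P.eval (x.lev p).a1
      * (x.lev p).P.eval (x.lev p).a2) * x.W =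
      (oh _ (-1800 * ((2 * n).choose n : Op x.F) * t * op _ d ^ 2 * eu x.Em) *
        Ring.inverse (oh _ (eu x.Nm))) * oh _ τ := by
    have b1 : (x.lev p).a1 = oh _ a1 := by rw [ha1]; rfl
    have b2 : (x.lev p).a2 = oh _ a2 := by rw [ha2]; rfl
    have b3 : (x.lev p).m2 = oh _ t := by rw [ht]; rfl
    have b4 : (x.lev p).l0 = oh _ i := by rw [hi]; rfl
    have b5 : (x.lev p).m1 = 1 := rfl
    rw [b1, b2] at hδ
    have s1 := congrArg (oh _) t1
    have s2 := congrArg (oh _) t2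
    have s3 := congrArg (oh _) tt
    have s4 := congrArg (oh _) hti
    simp only [Piece.W, Lev.P, Lev.h, b1, b2, b3, b4, b5, hX, hO, eval_mul, eval_sub, eval_X,
      eval_C, map_mul (oh x.F), map_pow (oh x.F), map_sub (oh x.F), map_one (oh x.F),
      map_natCast (oh x.F), map_neg (oh x.F), map_ofNat (oh x.F)] at s1 s2 s3 s4 ⊢
    generalize oh x.F a1 = A1 at *
    generalize oh x.F a2 = A2 at *
    generalize oh x.F t = T at *
    generalize oh x.F i = I at *
    generalize oh x.F τ = Y at *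
    generalize (((2 * n).choose n : ℕ) : Oh x.F) = c at *
    generalize (1 - A1 * A2 * I) ^ (2 * n) = Z at *
    generalize Ring.inverse (oh x.F (eu x.Nm)) = V at *
    generalize oh x.F (eu x.Em) = E at *
    generalize oh x.F (op x.F d) = D at *
    have s5 : δ * (1 - T) * Y = Y := by linear_combination Y * hδ - δ * s1 + δ * s2
    have s6 : I * (A1 * A2) * Y = Y := by linear_combination I * A2 * s1 + I * s2 + Y * s4
    have s7 : (I * (A1 * A2) * δ) ^ 2 * (A1 - T) * (A2 - 1) * Y = -Y := by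
      linear_combination (I * (A1 * A2) * δ) ^ 2 * (A2 - 1) * s1
        + (I * (A1 * A2) * δ) ^ 2 * (1 - T) * s2
        - (δ ^ 2 * (1 - T) ^ 2 * (I * (A1 * A2) + 1)) * s6 - (δ * (1 - T) + 1) * s5
    have s8 : A2 - T = -T * (1 - A2 * I) := by linear_combination -A2 * s4
    rw [s8]
    linear_combination (1800 * (I * (A1 * A2) * δ) ^ 2 * (A1 - T) * (A2 - 1) * T * D ^ 2 * E * V)
      * s3 + (1800 * T * c * D ^ 2 * E * V) * s7
  -- transfer to the point
  have tr := fun z => fhat_pull hP.proj (numF P) (numF x.F) 1 τ (fun u => by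
    rw [mul_one, numF_apply, numF_apply, mul_smul, htop, ← push_eq_incl hP, ← push_smul hP.proj,
      eul_push hP.proj]) z
  change _ • fhat (numF x.F) (_ * x.W) = _
  rw [key, ← tr, ← map_smul, map_one, mul_one, Oh.smul_def, map_mul (Oh.pull _), Oh.pull_oh]
  have hE : eu (x.Nm.pull hP.proj) = eu (x.Em.pull hP.proj) * (1 - tO P (-1)) ^ (n + 1) *
      (1 - tO P 1) ^ (n + 1) := by
    have := h.mov
    rw [map_sub, K.pull_kl, K.pull_kl, sub_eq_iff_eq_add', ← add_assoc] at this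
    rw [eu_nsmul _ _ this, eu_rk_one (rk_line _), eu_rk_one (rk_line _), ← lbK, ← lbK, K.dual_lbK,
      K.dual_lbK, ← neg_smul, ← neg_smul, neg_neg]
    rfl
  have hU := isUnit_oh_eu x.hw x.hNm
  have hV : oh P (eu (x.Nm.pull hP.proj)) * Oh.pull hP.proj (Ring.inverse (oh _ (eu x.Nm))) = 1 := by
    rw [eu_pull, ← Oh.pull_oh, ← map_mul, Ring.mul_inverse_cancel _ hU, map_one]
  have fin : oh P (tHom P ((1 - LaurentPolynomial.T 1) ^ (2 * (n + 1)))) *
      (oh P (Op.pull hP.proj (-1800 * ((2 * n).choose n : Op x.F) * t * op _ d ^ 2 * eu x.Em)) *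
        Oh.pull hP.proj (Ring.inverse (oh _ (eu x.Nm)))) =
      oh P (tHom P (((-1) ^ (n + 1 + 1) * 1800 * (2 * n).choose n : ℤ) •
        LaurentPolynomial.T (2 * e + (n + 2)))) := by
    have c1 : (LaurentPolynomial.T (2 * e + (n + 2)) : La) =
        LaurentPolynomial.T e ^ 2 * LaurentPolynomial.T 1 ^ (n + 2) := by
      rw [LaurentPolynomial.T_pow, LaurentPolynomial.T_pow, ← LaurentPolynomial.T_add]
      congr 1; push_cast; ring
    have c2 : Op.pull hP.proj (op _ d) = tO P e := by rw [Op.pull_op, he]; rfl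
    have c3 : Op.pull hP.proj t = tO P 1 := by rw [ht, tO_eq, tO_eq, Op.pull_tHom]
    have c4 := congrArg (oh P) (tO_mul P)
    rw [hE] at hV
    rw [c1, zsmul_eq_mul]
    simp only [map_mul, map_pow, map_sub, map_one, map_neg, map_ofNat, map_natCast, map_intCast,
      c2, c3, ← eu_pull, ← tO_eq] at hV c4 ⊢
    push_cast
    generalize Oh.pull hP.proj (Ring.inverse (oh x.F (eu x.Nm))) = V at *
    generalize oh P (eu (x.Em.pull hP.proj)) = E at *
    generalize oh P (tO P 1) = T at *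
    generalize oh P (tO P (-1)) = I at *
    have c5 : (1 - T) ^ (n + 1) = (-1) ^ (n + 1) * T ^ (n + 1) * (1 - I) ^ (n + 1) := by
      rw [← mul_pow, ← mul_pow]; congr 1; linear_combination -c4
    rw [two_mul (n + 1), pow_add]
    nth_rewrite 1 [c5]
    linear_combination (-1800 * (((2 * n).choose n : ℕ) : Oh P) * oh P (tO P e) ^ 2 *
      (-1) ^ (n + 1) * T ^ (n + 2)) * hV
  rw [fin, fhat_oh, numF_apply, eul_tHom, h.pt.eul_one, mul_one]

lemma La_smul_T {X : Spc} (k : ℤ) (a : G X) :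
    (LaurentPolynomial.T k : La) • a = sh X (k • eT) a := by
  rw [La_smul, tHom_T, lb_smul (zsmul_mem (eT_mem _) _)]

/-- setting `t = 1` (use `G.exists_wt`; `q` has extreme coefficients `± 1`) -/
theorem ev1_cancel (hS : S.TTriv fun _ => 0) {M N : GM} (hM : M.On S) (hN : N.On S)
    (hM0 : ∀ d : D, d none ≠ 0 → M.gr d = ⊥) (hN0 : ∀ d : D, d none ≠ 0 → N.gr d = ⊥)
    {q : La} (hq : q ∈ Mov) (r s : La) (a : G S)
    (h : (q * r) • (cl S M - cl S N) = (q * ((1 - LaurentPolynomial.T 1) * s)) • a) :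
    ev1 r • (cl S M - cl S N) = 0 := by
  obtain ⟨π, h1, h2, h3⟩ := G.exists_wt (X := S) hS
  have inj : ∀ q ∈ Mov, ∀ b : G S, (∀ k, π k (q • b) = 0) → ∀ k, π k b = 0 := by
    intro q hq
    induction hq using Submonoid.closure_induction with
    | mem q hq =>
      obtain ⟨k, hk, rfl⟩ := hq
      intro b hb j
      by_contra hne
      have step : ∀ j, π (j + k) b = π j b := fun j => by
        have := hb j
        rw [sub_smul, one_smul, map_sub, La_smul_T, h1, sub_eq_zero] at this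
        exact this.symm
      have all : ∀ n : ℕ, π (j + n * k) b = π j b := fun n => by
        induction n with
        | zero => simp
        | succ n ih => rw [← ih, ← step (j + n * k)]; congr 2; push_cast; ring
      refine Set.infinite_of_injective_forall_mem (f := fun n : ℕ => j + n * k)
        (fun m n e => ?_) (fun n => ?_) (h2 b)
      · have : (m : ℤ) * k = n * k := add_left_cancel e
        exact_mod_cast mul_right_cancel₀ hk this
      · change π (j + n * k) b ≠ 0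
        rwa [all]
    | one => intro b hb; simpa using hb
    | mul p q _ _ hp hq => intro b hb; exact hq b (hp _ (by simpa [mul_smul] using hb))
  let e : G S →+ G S :=
    { toFun := fun b => ∑ᶠ k, π k b
      map_zero' := by simp
      map_add' := fun b c => by
        simp only [map_add]
        exact finsum_add_distrib (h2 b) (h2 c) }
  have he : ∀ b, e b = ∑ᶠ k, π k b := fun _ => rfl
  have e1 : ∀ (p : La) b, e (p • b) = ev1 p • e b := by
    intro p b
    induction p using LaurentPolynomial.induction_on' with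
    | add p q hp hq => rw [add_smul, map_add, hp, hq, map_add, add_smul]
    | C_mul_T n c =>
      rw [mul_smul, eq_intCast LaurentPolynomial.C c, Int.cast_smul_eq_zsmul, map_zsmul, map_mul,
        map_intCast, ev1, LaurentPolynomial.eval₂_T, La_smul_T, he, he]
      simp only [h1]
      have := finsum_comp_equiv (Equiv.addRight n) (f := fun k => π k b)
      simp only [Equiv.coe_addRight] at this
      rw [this]
      simp
  have e2 : ∀ M : GM, M.On S → (∀ d : D, d none ≠ 0 → M.gr d = ⊥) → e (cl S M) = cl S M := by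
    intro M hM hM0
    rw [he, finsum_eq_single _ 0 (h3 M hM hM0).2, (h3 M hM hM0).1]
  have z := inj q hq (r • (cl S M - cl S N) - ((1 - LaurentPolynomial.T 1) * s) • a) fun k => by
    rw [smul_sub, ← mul_smul, ← mul_smul, h, sub_self, map_zero]
  have z' : e (r • (cl S M - cl S N) - ((1 - LaurentPolynomial.T 1) * s) • a) = 0 := by
    rw [he]; simp [z]
  rw [map_sub, e1, e1, map_sub, e2 M hM hM0, e2 N hN hN0, map_mul, map_sub, map_one] at z'
  have : ev1 (LaurentPolynomial.T 1) = 1 := by rw [ev1, LaurentPolynomial.eval₂_T]; simp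
  rwa [this, sub_self, zero_mul, zero_smul, sub_zero] at z'

/-- the module of a point -/
theorem isPt_O_orb (hS : S.TTriv fun _ => 0) {b : ℕ} (hb : S.B = {b}) (p : Pt) (hp : p ∈ S.pts) :
    (GM.O (S.orb _ hS p hp)).IsPt p 0 ∧ (GM.O (S.orb _ hS p hp)).On S ∧
      ∀ d : D, d none ≠ 0 → (GM.O (S.orb _ hS p hp)).gr d = ⊥ := by
  refine ⟨⟨(1 : R ⧸ (S.orb _ hS p hp).I), (GM.Oid_gr _ _).2 ⟨1, Hmg.one, rfl⟩, ?_, fun r => ?_⟩,
    (GM.red_O _).on.mono (S.orb_sub _ hS p hp), fun d hd => eq_bot_iff.2 fun q hq => ?_⟩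
  · refine eq_top_iff.2 fun q _ => ?_
    obtain ⟨r, rfl⟩ := Ideal.Quotient.mk_surjective (I := (S.orb _ hS p hp).I) q
    exact Submodule.mem_span_singleton.2 ⟨r, mul_one (Ideal.Quotient.mk _ r)⟩
  · change Ideal.Quotient.mk (S.orb _ hS p hp).I r * 1 = 0 ↔ _
    rw [mul_one, Ideal.Quotient.eq_zero_iff_mem, mem_lineI]
    constructor
    · exact fun h c hc => h _ ⟨fun _ => c, fun _ => hc, fun _ => rfl⟩
    · rintro h y ⟨c, hc, e⟩
      have : y = c b • p := funext fun v => by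
        by_cases hv : v.1 = b
        · rw [e, hv]; rfl
        · simp [e, Sp.eq_zero_of_notMem hp (v := v) (by simpa [hb] using hv)]
      rw [this]; exact h _ (hc b)
  · obtain ⟨r, hr, rfl⟩ := (GM.Oid_gr _ _).1 hq
    refine Ideal.Quotient.eq_zero_iff_mem.2 fun y hy => ?_
    obtain ⟨t, ht, h1, h2⟩ := Sp.exists_tor_eq (fun _ => 1) (fun _ => one_ne_zero) 2 two_ne_zero
    have e1 : tpt t y = y := funext fun v => by
      by_cases hv : y v = 0
      · simp [ht, hv]
      · simp [ht, hS y ((S.orb_sub _ hS p hp).2 hy) v hv]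
    have e2 : ∀ d : D, (t (Multiplicative.ofAdd d) : ℂ) = 2 ^ d none := by
      intro d
      induction d using Finsupp.induction_linear with
      | zero => simp
      | add d e hd he =>
        rw [ofAdd_add, map_mul, Units.val_mul, hd, he, Finsupp.add_apply, zpow_add₀ two_ne_zero]
      | single i n =>
        rw [← mul_one n, ← smul_eq_mul, ← Finsupp.smul_single, ofAdd_zsmul, map_zpow,
          Units.val_zpow_eq_zpow_val]
        cases i with
        | none => rw [← eT, h2]; simp [eT]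
        | some b => rw [← eB, h1]; simp [eB]
    have e3 := hr.eval_tpt t y
    rw [e1, e2] at e3
    by_contra h0
    have e4 : (2 : ℂ) ^ d none = 1 := mul_right_cancel₀ h0 (by rw [← e3, one_mul])
    have e5 := congrArg norm e4
    rw [norm_zpow, norm_one, Complex.norm_two] at e5
    exact hd ((zpow_eq_one_iff_right₀ (by norm_num) (by norm_num)).1 e5)

end Crest.Agent.N265.Top
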