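import Crest.Agent.N265.Top.Glob
import Crest.Agent.N265.Top.Eval
import Crest.Agent.N265.Formal.Hecke
import Crest.Agent.N265.Psi.Fld

/-! # Row 265: `ModelStmt → TorsStmt` -/

set_option autoImplicit false
noncomputable section
open Polynomial

namespace Crest.Agent.N265.Top
open Bun Formal
variable {S : Spc} {hS : S.TTriv fun _ => 0}

lemma ev1_T (k : ℤ) : ev1 (LaurentPolynomial.T k) = 1 := by
  rw [ev1, LaurentPolynomial.eval₂_T]; simp

theorem Model.tors (M : Model S hS) {b : ℕ} (hb : S.B = {b}) : ∃ n : ℤ, n ≠ 0 ∧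
    ∀ p (hp : p ∈ S.pts) p' (hp' : p' ∈ S.pts), n • (ptc S hS p hp - ptc S hS p' hp') = 0 := by
  classical
  let _ := M.fin
  let good : M.Φ → Prop := fun φ => M.ν φ = 2 ∧ ∃ h1 h2 d P hP, Eval (M.x φ 0) M.N h1 h2 d P hP
  let c0 : ℤ := (-1) ^ (M.N + 1) * 1800 * (2 * M.N - 2).choose (M.N - 1)
  have hN := M.hN
  refine ⟨(Finset.univ.filter good).card * c0, mul_ne_zero ?_ ?_, fun p hp p' hp' => ?_⟩
  · obtain ⟨φ, hφ⟩ := M.good
    exact_mod_cast (Finset.card_pos.2 ⟨φ, Finset.mem_filter.2 ⟨Finset.mem_univ _, hφ⟩⟩).ne'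
  · refine mul_ne_zero (mul_ne_zero (pow_ne_zero _ (by norm_num)) (by norm_num)) ?_
    exact_mod_cast (Nat.choose_pos (by omega)).ne'
  set a := ptc S hS p hp
  set a' := ptc S hS p' hp'
  let tot : M.Φ → Mh (G S) := fun φ =>
    total (M.ν φ) (fun n => (M.x φ n).lev p) (fun n => (M.x φ n).lev p') (vv a) (vv a')
  have H1 : ∃ γ : G S, ∑ φ, tot φ = toMh (G S) γ := by
    have : ∀ k ∈ Finset.range 4, ∃ γ : G S, ∑ φ, (if k ≤ M.ν φ then
        ∑ n ∈ Finset.HasAntidiagonal.antidiagonal (M.ν φ - k), term ((M.x φ n).lev p)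
          ((M.x φ n).lev p') (vv a) (vv a') k else 0) = toMh (G S) γ := fun k hk => by
      obtain ⟨γ, hγ⟩ := (M.glob k (Finset.mem_range.1 hk)).sum_term hp hp' a a' k
      refine ⟨γ, Eq.trans ?_ hγ⟩
      rw [Fintype.sum_sigma, ← Finset.sum_filter, Finset.sum_subtype (p := fun φ => k ≤ M.ν φ)
        (F := inferInstance) _ (by simp)]
      refine Finset.sum_congr rfl fun φ _ => ?_
      exact (Finset.sum_coe_sort _ _).symm
    choose! γ hγ using this
    refine ⟨∑ k ∈ Finset.range 4, γ k, ?_⟩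
    rw [map_sum, ← Finset.sum_congr rfl hγ, Finset.sum_comm]; rfl
  have H2 : ∀ φ, ∃ e : ℤ, ((1 - LaurentPolynomial.T 1 : La) ^ (2 * M.N)) • tot φ =
      if good φ then toMh (G S) ((c0 • LaurentPolynomial.T e : La) • (a - a')) else 0 := fun φ => by
    obtain ⟨J, hJ⟩ := M.hecke φ hp
    obtain ⟨J', hJ'⟩ := M.hecke φ hp'
    obtain ⟨f1, f2, f3, f4⟩ := family (M.ν φ) (J + J') (fun n => Oh (M.x φ n).F)
      (fun n => (M.x φ n).lev p) (fun n => (M.x φ n).lev p') (vv a) (vv a')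
      (hJ _ (by omega)) (hJ' _ (by omega)) fun n _ => Piece.same _ p p'
    have kill : ∀ (x : Piece S) (u : Op x.F), u * eu x.Ob = 0 → ∀ r, x.L (oh _ u * r) = 0 :=
      fun x u hu r => by
        have : oh _ u * x.W = 0 := by
          rw [Piece.W, ← mul_assoc, ← map_mul, show u * (x.X0 * eu x.Em * eu x.Ob) =
            x.X0 * eu x.Em * (u * eu x.Ob) by ring, hu]; simp
        rw [x.L_apply, mul_right_comm, this, zero_mul, map_zero]
    by_cases hg : good φ
    · obtain ⟨h2, h1', h2', d, P, hP, hE⟩ := hg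
      obtain ⟨J0, h0⟩ := (M.x φ 0).ok hp
      obtain ⟨δ, hδ⟩ := h0.ud.exists_left_inv
      obtain ⟨e, he⟩ := eval_value (M.k1 φ 0) hN hE p δ hδ
      refine ⟨e, ?_⟩
      rw [if_pos ⟨h2, h1', h2', d, P, hP, hE⟩]
      change _ • total _ _ _ _ _ = _
      rw [f4 h2 δ hδ, AddMonoidHom.sub_apply, smul_sub]
      change _ • vhat a _ - _ • vhat a' _ = _
      rw [← map_smul (vhat a), ← map_smul (vhat a'), he, vhat_toMh, vhat_toMh, ← map_sub, smul_sub]
    · refine ⟨0, ?_⟩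
      rw [if_neg hg]
      change _ • total _ _ _ _ _ = _
      rcases M.cases φ with h | h | h | h
      · rw [f1 fun n hn r => ?_, smul_zero]
        have := kill _ (-(1 - op _ (M.x φ n).l1.kl)) (by rw [neg_mul, h n hn, neg_zero]) r
        rwa [neg_sub, map_sub, map_one] at this
      · rw [f2 fun n hn r => ?_, smul_zero]
        have := kill _ (op _ (M.x φ n).l2.kl - tO _ 1) (by
          linear_combination (-tO (M.x φ n).F 1) * h n hn - op _ (M.x φ n).l2.kl *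
            eu (M.x φ n).Ob * tO_one_mul (X := (M.x φ n).F)) r
        rwa [map_sub] at this
      · rw [f3 h, smul_zero]
      · exact absurd h hg
  obtain ⟨γ, hγ⟩ := H1
  choose e he using H2
  have H3 : toMh (G S) ((∑ φ ∈ Finset.univ.filter good, c0 • LaurentPolynomial.T (e φ) : La) •
      (a - a')) = toMh (G S) (((1 - LaurentPolynomial.T 1 : La) ^ (2 * M.N)) • γ) := by
    rw [map_smul _ _ γ, ← hγ, Finset.smul_sum, Finset.sum_congr rfl fun φ _ => he φ,
      ← Finset.sum_filter, Finset.sum_smul, map_sum]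
  obtain ⟨q, hq⟩ := (IsLocalizedModule.eq_iff_exists Mov (toMh (G S))).1 H3
  obtain ⟨-, o1, w1⟩ := isPt_O_orb hS hb p hp
  obtain ⟨-, o2, w2⟩ := isPt_O_orb hS hb p' hp'
  have := ev1_cancel hS o1 o2 w1 w2 q.2
    (∑ φ ∈ Finset.univ.filter good, c0 • LaurentPolynomial.T (e φ))
    ((1 - LaurentPolynomial.T 1) ^ (2 * M.N - 1)) γ (by
      rw [mul_smul, mul_smul, ← pow_succ', show 2 * M.N - 1 + 1 = 2 * M.N by omega]; exact hq)
  rw [map_sum] at this
  simp only [map_zsmul, ev1_T, Finset.sum_const] at this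
  rw [smul_eq_mul, mul_one, nsmul_eq_mul] at this
  exact this

/-- the geometric model gives uniform torsion -/
theorem tors_of_model (H : ModelStmt) : Br.TorsStmt := fun Sg => by
  obtain ⟨M⟩ := H Sg
  obtain ⟨n, hn, h⟩ := M.tors (Sg.S_B 0)
  obtain ⟨A, _, κ, hκ, hψ⟩ := Psi.psi_of_surfOK (Sg.surfOK 0)
  obtain ⟨ψ, hψ⟩ := hψ (fun _ => 1) fun _ => rfl
  refine ⟨n, hn, fun p hp p' hp' => hκ ?_⟩
  obtain ⟨i1, o1, -⟩ := isPt_O_orb (Sg.S_ttriv 0) (Sg.S_B 0) p hp
  obtain ⟨i2, o2, -⟩ := isPt_O_orb (Sg.S_ttriv 0) (Sg.S_B 0) p' hp'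
  have := congrArg ψ (h p hp p' hp')
  rw [map_zsmul, map_sub, ptc, ptc, hψ _ p 0 hp o1 i1, hψ _ p' 0 hp' o2 i2, one_smul, one_smul,
    map_zero] at this
  rw [AddMonoidHom.mem_ker, map_zsmul, map_sub, this]

end Crest.Agent.N265.Top
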