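import Crest.Agent.N265.K.Box
import Crest.Agent.N265.Formal.Iface
import Crest.Agent.N265.Br.Surf

/-!
# Row 265: what the geometry has to deliver (`Model`), in the language of `K X`, `Op X`, `G X`

`Top/Main.lean` proves `ModelStmt → PSI → TorsStmt`.
-/

set_option autoImplicit false
noncomputable section
open Polynomial

namespace Crest.Agent.N265.Top
open Bun

/-- `t^k` in `K X` -/
abbrev tK (X : Spc) (k : ℤ) : K X := lbK X (k • eT)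
/-- `t^k` in `Op X` -/
abbrev tO (X : Spc) (k : ℤ) : Op X := lb X (k • eT)

/-- A fixed piece `F` (points = pairs of ideal sheaves `I₁ t^{k₁} ⊕ I₂ t^{k₂}`):
`I_i|_p = U_i p - B_i p`, `l_i = det I_i|_p`, `σ = [I₁ t^{k₁} ⊕ I₂ t^{k₂}]` on `F × S`,
`N^vir = Nm - Em`, obstruction bundle `Ob`, extra insertion `X0`. -/
structure Piece (S : Spc) where
  F : Spc
  w : ℕ → ℤ
  hw : F.TTriv w
  dis : Disjoint F.B S.B
  k1 : ℤ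
  k2 : ℤ
  hk : (k1 = 0 ∧ k2 = 1) ∨ (k1 = 1 ∧ k2 = 0)
  r1 : ℕ
  r2 : ℕ
  U1 : Pt → Bun F
  B1 : Pt → Bun F
  U2 : Pt → Bun F
  B2 : Pt → Bun F
  l1 : Bun F
  l2 : Bun F
  rl1 : l1.Rk 1
  rl2 : l2.Rk 1
  pl1 : l1.Pure w k1
  pl2 : l2.Pure w k2
  rU1 : ∀ p ∈ S.pts, (U1 p).Rk (r1 + 1)
  rB1 : ∀ p ∈ S.pts, (B1 p).Rk r1
  rU2 : ∀ p ∈ S.pts, (U2 p).Rk (r2 + 1)
  rB2 : ∀ p ∈ S.pts, (B2 p).Rk r2
  pU1 : ∀ p ∈ S.pts, (U1 p).Pure w k1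
  pB1 : ∀ p ∈ S.pts, (B1 p).Pure w k1
  pU2 : ∀ p ∈ S.pts, (U2 p).Pure w k2
  pB2 : ∀ p ∈ S.pts, (B2 p).Pure w k2
  det1 : ∀ p (hp : p ∈ S.pts),
    ((U1 p).det _ (rU1 p hp)).kl = l1.kl * ((B1 p).det _ (rB1 p hp)).kl
  det2 : ∀ p (hp : p ∈ S.pts),
    ((U2 p).det _ (rU2 p hp)).kl = l2.kl * ((B2 p).det _ (rB2 p hp)).kl
  σ : K (F.fib S)
  Nm : Bun F
  Em : Bun F
  Ob : Bun F
  hNm : ∀ i, nwt F.B w (Nm.deg i) ≠ 0
  hEm : ∀ i, nwt F.B w (Em.deg i) ≠ 0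
  X0 : Op F

variable {S : Spc}

/-- exchange the two summands -/
def Piece.swap (x : Piece S) : Piece S :=
  { x with
    k1 := x.k2, k2 := x.k1, hk := by rcases x.hk with h | h <;> simp [h.1, h.2]
    r1 := x.r2, r2 := x.r1, U1 := x.U2, B1 := x.B2, U2 := x.U1, B2 := x.B1
    l1 := x.l2, l2 := x.l1, rl1 := x.rl2, rl2 := x.rl1, pl1 := x.pl2, pl2 := x.pl1
    rU1 := x.rU2, rB1 := x.rB2, rU2 := x.rU1, rB2 := x.rB1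
    pU1 := x.pU2, pB1 := x.pB2, pU2 := x.pU1, pB2 := x.pB1, det1 := x.det2, det2 := x.det1 }

/-- the class of the point `p` -/
def ptc (S : Spc) (hS : S.TTriv fun _ => 0) (p : Pt) (hp : p ∈ S.pts) : G S :=
  cl S (GM.O (S.orb _ hS p hp))

/-- The nested space `N = {I₁' ⊂ I₁, I₁/I₁' = ℓ ⊗ ℂ_p}` between the pieces `x` and `y`;
`v ∈ K S` is the class of the point `p`. -/
structure NestK (x y : Piece S) (p : Pt) (v : K S) (N : Spc) (π : Proj N x.F) (π' : Proj N y.F)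
    (l : Bun N) : Prop where
  dis : Disjoint N.B S.B
  rl : l.Rk 1
  k1 : x.k1 = y.k1
  l1 : K.pull π x.l1.kl = K.pull π' y.l1.kl
  l2 : K.pull π x.l2.kl = K.pull π' y.l2.kl
  /-- `I_i'|_p = I_i|_p` -/
  p1 : K.pull π (x.U1 p).kl + K.pull π' (y.B1 p).kl = K.pull π' (y.U1 p).kl + K.pull π (x.B1 p).kl
  p2 : K.pull π (x.U2 p).kl + K.pull π' (y.B2 p).kl = K.pull π' (y.U2 p).kl + K.pull π (x.B2 p).kl
  root : (chp (x.U1 p) (x.r1 + 1)).eval₂ (Op.pull π) (op N l.kl) = 0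
  /-- zero locus of `ℓ → U₁'` in `P_sub(B₁')` (lemma `z1_of`) -/
  z1 : ∀ φ : (Op y.F)[X],
    push N y.F ((φ.eval₂ (Op.pull π') (op N l.kl) * op N l.kl * Op.pull π' (op _ y.l1.kl)) • one N)
      = Formal.res (chp (y.B1 p) y.r1) (φ * chp (y.U1 p) (y.r1 + 1)) • one y.F
  /-- zero locus of `B₁ → ℓ` in `P_sub(U₁^∨)` (lemma `z2_of`) -/
  z2 : ∀ φ : (Op x.F)[X], push N x.F (φ.eval₂ (Op.pull π) (op N l.kl) • one N)
      = Formal.res (chp (x.U1 p) (x.r1 + 1)) (φ * chp (x.B1 p) x.r1) • one x.F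
  /-- `N^vir' - N^vir = ℓ⁻¹ (I₂ - t^{k₂}) + ℓ I₂^∨` -/
  mov : K.pull π' (y.Nm.kl - y.Em.kl) = K.pull π (x.Nm.kl - x.Em.kl)
    + K.dual N l.kl * (K.pull π ((x.U2 p).kl - (x.B2 p).kl) - tK N x.k2)
    + l.kl * K.dual N (K.pull π ((x.U2 p).kl - (x.B2 p).kl))
  ob : K.pull π' y.Ob.kl = K.pull π x.Ob.kl + K.dual N l.kl * tK N x.k1
  X0 : Op.pull π' y.X0 * op N l.kl ^ 2 = Op.pull π x.X0
  /-- `𝓢' = 𝓢 - ℓ ⊗ O_p` on `N × S` -/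
  σ : K.pull (π'.fib_map S) y.σ = K.pull (π.fib_map S) x.σ
    - K.pull (Spc.fib_fst N S) l.kl * K.pull (Spc.fib_snd N S) v

/-- existence of the nested space -/
def HasNestK (x y : Piece S) (p : Pt) (v : K S) : Prop :=
  ∃ (N : Spc) (π : Proj N x.F) (π' : Proj N y.F) (l : Bun N), NestK x y p v N π π' l

/-- A Quot scheme `Q` with its fixed pieces and the output of virtual localisation. -/
structure Glob (S : Spc) {ι : Type} [Fintype ι] (x : ι → Piece S) where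
  Q : Spc
  dis : Disjoint Q.B S.B
  pr : ∀ i, Proj (x i).F Q
  rB : ℕ
  U : Pt → Bun Q
  B : Pt → Bun Q
  hU : ∀ p ∈ S.pts, (U p).Rk (rB + 2)
  hB : ∀ p ∈ S.pts, (B p).Rk rB
  res : ∀ i, ∀ p ∈ S.pts, K.pull (pr i) ((U p).kl - (B p).kl) =
    (((x i).U1 p).kl - ((x i).B1 p).kl) + (((x i).U2 p).kl - ((x i).B2 p).kl)
  X0 : Op Q
  hX0 : ∀ i, Op.pull (pr i) X0 = (x i).X0
  σ : K (Q.fib S)
  hσ : ∀ i, K.pull ((pr i).fib_map S) σ = (x i).σ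
  loc : ∃ (vir : G Q) (q : La) (α : ∀ i, G (x i).F), q ∈ Mov ∧
    q • vir = ∑ i, push (x i).F Q (α i) ∧
    ∀ i, eu (x i).Nm • α i = q • (eu (x i).Em * eu (x i).Ob) • one (x i).F

/-- the surviving pieces: no points, `χ(β_i) = N + 1`, `β₁ ≡ β₂`; `h_i = h¹(β_i)` -/
structure Eval (x : Piece S) (N h1 h2 : ℕ) (d : K x.F) (P : Spc) (hP : P.Sub x.F) : Prop where
  hd : ∃ e : ℤ, K.pull hP.proj d = tK P e
  X0 : x.X0 = op _ d ^ 2 * (1 - op _ x.l1.kl * op _ x.l2.kl * tO x.F (-1)) ^ (2 * N - 2)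
  ob : x.Ob.kl = h1 • K.dual _ x.l1.kl + h2 • (K.dual _ x.l2.kl * tK x.F 1)
  nil1 : (1 - op _ x.l1.kl) ^ (N + h1 + 1) = 0
  nil2 : (1 - op _ x.l2.kl * tO x.F (-1)) ^ (N + h2 + 1) = 0
  pt : P.IsPt x.w
  top : ((1 - op _ x.l1.kl) ^ (N + h1) * (1 - op _ x.l2.kl * tO x.F (-1)) ^ (N + h2)) • one x.F
    = incl P x.F (one P)
  mov : K.pull hP.proj (x.Nm.kl - x.Em.kl) = N • tK P 1 + N • tK P (-1)

/-- index set of the pieces of `Q_k`: families `φ` and `n` with `|n| + k = ν φ` -/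
abbrev Idx {Φ : Type} (ν : Φ → ℕ) (k : ℕ) : Type :=
  Σ φ : {φ : Φ // k ≤ ν φ}, {n : ℕ × ℕ // n ∈ Finset.HasAntidiagonal.antidiagonal (ν φ.1 - k)}

/-- **The geometric input.** -/
structure Model (S : Spc) (hS : S.TTriv fun _ => 0) where
  Φ : Type
  [fin : Fintype Φ]
  ν : Φ → ℕ
  x : Φ → ℕ × ℕ → Piece S
  k1 : ∀ φ n, (x φ n).k1 = 0
  v : Pt → K S
  hv : ∀ p (hp : p ∈ S.pts), v p • one S = ptc S hS p hp
  bot1 : ∀ φ, ∀ k ≤ ν φ, ∀ p ∈ S.pts,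
    ((x φ (0, k)).U1 p).kl = (x φ (0, k)).l1.kl + ((x φ (0, k)).B1 p).kl
  bot2 : ∀ φ, ∀ k ≤ ν φ, ∀ p ∈ S.pts,
    ((x φ (k, 0)).U2 p).kl = (x φ (k, 0)).l2.kl + ((x φ (k, 0)).B2 p).kl
  up1 : ∀ φ i j, i + j < ν φ → ∀ p ∈ S.pts, HasNestK (x φ (i, j)) (x φ (i + 1, j)) p (v p)
  up2 : ∀ φ i j, i + j < ν φ → ∀ p ∈ S.pts,
    HasNestK (x φ (i, j)).swap (x φ (i, j + 1)).swap p (v p)
  glob : ∀ k < 4, Glob S fun i : Idx ν k => x i.1.1 i.2.1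
  N : ℕ
  hN : 1 ≤ N
  cases : ∀ φ,
    (∀ n : ℕ × ℕ, n.1 + n.2 ≤ ν φ → (1 - op _ (x φ n).l1.kl) * eu (x φ n).Ob = 0) ∨
    (∀ n : ℕ × ℕ, n.1 + n.2 ≤ ν φ →
      (1 - op _ (x φ n).l2.kl * tO (x φ n).F (-1)) * eu (x φ n).Ob = 0) ∨
    ν φ ≤ 1 ∨ (ν φ = 2 ∧ ∃ h1 h2 d P hP, Eval (x φ 0) N h1 h2 d P hP)
  good : ∃ φ, ν φ = 2 ∧ ∃ h1 h2 d P hP, Eval (x φ 0) N h1 h2 d P hP

/-- the statement proved by the geometry -/
def ModelStmt : Prop := ∀ Sg : Br.Surf, Nonempty (Model (Sg.S 0) (Sg.S_ttriv 0))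

end Crest.Agent.N265.Top
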