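import Crest.Agent.N265.Top.Nest2

/-! # Row 265: the contributions of the fixed pieces of one Quot scheme add up to an integral class -/

set_option autoImplicit false
noncomputable section
open Polynomial

namespace Crest.Agent.N265.Top
open Bun Formal
variable {S X : Spc}

lemma tr_chp {U B : Bun X} {r : ℕ} (hU : U.Rk (r + 1)) (hB : B.Rk r) :
    tr ((chp U (r + 1)).map (oh X)) ((chp B r).map (oh X)) = oh X (op X (U.kl - B.kl)) := by
  have key : ∀ {A : Bun X} {n : ℕ}, A.Rk n → ((chp A n).map (oh X)).nextCoeff =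
      -oh X (op X A.kl) := fun {A n} h => by
    nontriviality (Oh X)
    have hd := ((mon_chp h).map (oh X)).natDegree
    cases n with
    | zero =>
      have : A.kl = 0 := kl_of_bot fun x hx => Submodule.finrank_eq_zero.1 (h x hx)
      rw [nextCoeff, if_pos hd, this]; simp
    | succ n =>
      rw [nextCoeff, if_neg (by omega), hd, coeff_map, Nat.add_sub_cancel, chp_coeff_pred h, map_neg]
  rw [tr, key hU, key hB, map_sub, map_sub]; ring

variable {ι : Type} [Fintype ι] {x : ι → Piece S} (Q : Glob S x)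

/-- localisation formula for a functional -/
lemma Glob.exists_vir : ∃ vir : G Q.Q, ∀ {M : Type 1} [AddCommGroup M] [Module La M]
    (Ψ : G Q.Q →ₗ[La] M) (Φ : ∀ i, Op (x i).F →ₗ[La] M),
    (∀ i u, Φ i u = Ψ (push (x i).F Q.Q (u • one (x i).F))) → ∀ u : Op Q.Q,
    ∑ i, fhat (Φ i) (oh _ (Op.pull (Q.pr i) u) * (x i).W) = toMh M (Ψ ((u * Q.X0) • vir)) := by
  obtain ⟨vir, q, α, hq, h1, h2⟩ := Q.loc
  refine ⟨vir, fun {M} _ _ Ψ Φ hΦ u => Mh.smul_inj hq ?_⟩
  rw [← map_smul, ← map_smul, smul_comm q, h1, Finset.smul_sum, Finset.smul_sum, map_sum, map_sum]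
  refine Finset.sum_congr rfl fun i _ => ?_
  obtain ⟨q', hq', c, hc⟩ := eu_dvd (x i).hw (x i).hNm
  refine Mh.smul_inj hq' ?_
  have e1 : q' • (oh _ (Op.pull (Q.pr i) u) * (x i).W) = oh _ (Op.pull (Q.pr i) u * c *
      ((x i).X0 * eu (x i).Em * eu (x i).Ob)) := by
    rw [Oh.smul_def, hc, map_mul, map_mul _ _ (_ * _ * _), ← (x i).W_mul, map_mul]; ring
  rw [smul_comm q', ← map_smul (fhat _), e1, fhat_oh, hΦ, ← push_smul (Q.pr i)]
  change q • toMh M (Ψ (pushL (Q.pr i) _)) = q' • toMh M (Ψ (pushL (Q.pr i) _))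
  simp only [← map_smul]
  congr 3
  rw [La_smul q', hc, mul_comm (eu _) c, mul_smul c, smul_comm (eu _), h2, map_mul, Q.hX0, La_smul,
    La_smul]
  simp only [smul_smul]
  congr 1; ring

/-- the determinant of the rank two sheaf at a point -/
def Glob.h (p : Pt) (hp : p ∈ S.pts) : Op Q.Q :=
  op _ ((Q.U p).det _ (Q.hU p hp)).kl * op _ (K.dual _ ((Q.B p).det _ (Q.hB p hp)).kl)

lemma Glob.pull_h {p : Pt} (hp : p ∈ S.pts) (i : ι) :
    oh _ (Op.pull (Q.pr i) (Q.h p hp)) = ((x i).lev p).h := by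
  have hU := (Q.hU p hp).pull (Q.pr i)
  have hB := (Q.hB p hp).pull (Q.pr i)
  have e := chp_add_add (A := (Q.U p).pull (Q.pr i)) (B := ((x i).B1 p).sum ((x i).B2 p))
    (C := (Q.B p).pull (Q.pr i)) (E := ((x i).U1 p).sum ((x i).U2 p)) hU
    (((x i).rB1 p hp).sum ((x i).rB2 p hp)) hB (((x i).rU1 p hp).sum ((x i).rU2 p hp)) (by omega) (by
      have := Q.res i p hp
      rw [map_sub, K.pull_kl, K.pull_kl] at this
      rw [kl_sum, kl_sum]; linear_combination this)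
  rw [chp_add ((x i).rB1 p hp) ((x i).rB2 p hp) (kl_sum _ _),
    chp_add ((x i).rU1 p hp) ((x i).rU2 p hp) (kl_sum _ _)] at e
  have e0 := congrArg (fun f => f.coeff 0) e
  simp only [mul_coeff_zero, chp_coeff_zero hU, chp_coeff_zero hB, chp_coeff_zero ((x i).rB1 p hp),
    chp_coeff_zero ((x i).rB2 p hp), chp_coeff_zero ((x i).rU1 p hp),
    chp_coeff_zero ((x i).rU2 p hp), (x i).det1 p hp, (x i).det2 p hp, map_mul] at e0
  have u1 := isUnit_det ((x i).rB1 p hp)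
  have u2 := isUnit_det ((x i).rB2 p hp)
  have u3 : IsUnit ((-1 : Op (x i).F) ^ (Q.rB + (x i).r1 + (x i).r2)) := isUnit_one.neg.pow _
  have d := op_mul_dual (((Q.B p).pull (Q.pr i)).rk_det _ hB)
  change _ = oh _ _ * oh _ _
  rw [← map_mul, Glob.h, map_mul, Op.pull_op, Op.pull_op, K.pull_dual, kl_det_pull, kl_det_pull]
  congr 1
  refine ((u1.mul u2).mul u3).mul_left_cancel ?_
  generalize op _ (((Q.B p).pull (Q.pr i)).det _ hB).kl = dB at *
  generalize op _ (K.dual _ (((Q.B p).pull (Q.pr i)).det _ hB).kl) = dB' at *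
  linear_combination dB' * e0 + (op _ (((x i).B1 p).det _ ((x i).rB1 p hp)).kl *
    op _ (((x i).B2 p).det _ ((x i).rB2 p hp)).kl * (-1) ^ (Q.rB + (x i).r1 + (x i).r2) *
    op _ (x i).l1.kl * op _ (x i).l2.kl) * d

lemma Glob.pull_c {p : Pt} (hp : p ∈ S.pts) (i : ι) :
    oh _ (Op.pull (Q.pr i) (op _ ((Q.U p).kl - (Q.B p).kl))) = ((x i).lev p).c := by
  rw [Op.pull_op, Q.res i p hp, map_add, map_add, ← tr_chp ((x i).rU1 p hp) ((x i).rB1 p hp),
    ← tr_chp ((x i).rU2 p hp) ((x i).rB2 p hp)]; rfl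

include Q in
theorem Glob.sum_term {p p' : Pt} (hp : p ∈ S.pts) (hp' : p' ∈ S.pts) (a a' : G S) (k : ℕ) :
    ∃ γ : G S, ∑ i, term ((x i).lev p) ((x i).lev p') (vv a) (vv a') k = toMh (G S) γ := by
  obtain ⟨vir, hv⟩ := Q.exists_vir
  have hG : ∀ {p : Pt} (hp : p ∈ S.pts), ∃ γ : G S, ∑ i, ((x i).lev p).Γ (Gk ((x i).lev p).m1
      ((x i).lev p).m2 ((x i).lev p).l0 ((x i).lev p).h ((x i).lev p).c k) = toMh (G S) γ :=
    fun {p} hp => ⟨_, Eq.trans (Finset.sum_congr rfl fun i _ => by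
      rw [← Q.pull_h hp, ← Q.pull_c hp, Gk_map, Gk_map, pull_tO, pull_tO, map_one, map_one]; rfl)
      (hv (srfG _ S Q.dis (op _ Q.σ)) (fun i => srfF _ S (op _ (x i).σ)) (fun i u => by
        rw [srfF_eq (x i).dis, ← srfG_push (Q.pr i) (x i).dis, Op.pull_op, Q.hσ])
        (Gk 1 (tO _ 1) (tO _ (-1)) (Q.h p hp) (op _ ((Q.U p).kl - (Q.B p).kl)) k))⟩
  obtain ⟨γ, hγ⟩ := hG hp
  obtain ⟨γ', hγ'⟩ := hG hp'
  have hF : ∀ b : G S, ∃ γ : G S, ∑ i, vv b (((x i).lev p).L (Fk ((x i).lev p).m1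
      ((x i).lev p).m2 ((x i).lev p).l0 ((x i).lev p).h ((x i).lev p).c k)) = toMh (G S) γ :=
    fun b => ⟨_, Eq.trans (Finset.sum_congr rfl fun i _ => by
      have : fhat (LinearMap.toSpanSingleton La (G S) b ∘ₗ numF (x i).F) =
          vhat b ∘ₗ fhat (numF (x i).F) := Oh.lin_ext fun u => by
        rw [LinearMap.comp_apply, fhat_oh, fhat_oh, vhat_toMh]; rfl
      rw [this, ← Q.pull_h hp, ← Q.pull_c hp, Fk_map, Fk_map, pull_tO, pull_tO, map_one, map_one]
      rfl)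
      (hv (LinearMap.toSpanSingleton La (G S) b ∘ₗ eulL _)
        (fun i => LinearMap.toSpanSingleton La (G S) b ∘ₗ numF (x i).F) (fun i u => by
          simp only [LinearMap.comp_apply]
          congr 1
          exact (eul_push (Q.pr i) _).symm)
        (Fk 1 (tO _ 1) (tO _ (-1)) (Q.h p hp) (op _ ((Q.U p).kl - (Q.B p).kl)) k))⟩
  obtain ⟨δ, hδ⟩ := hF a
  obtain ⟨δ', hδ'⟩ := hF a'
  refine ⟨γ - γ' + (δ - δ'), ?_⟩
  simp only [term, AddMonoidHom.sub_apply, Finset.sum_add_distrib, Finset.sum_sub_distrib]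
  rw [hγ, hγ', hδ, hδ', map_add, map_sub, map_sub]

end Crest.Agent.N265.Top
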