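import Crest.Agent.N265.Top.Model

/-! # Row 265: the formal data attached to a piece -/

set_option autoImplicit false
noncomputable section
open Polynomial

namespace Crest.Agent.N265.Top
open Bun Formal
variable {S : Spc}

namespace Piece
variable (x : Piece S)
/-- the virtual weight `X0 · eu(Ob) / eu(N^vir)` -/
def W : Oh x.F := oh _ (x.X0 * eu x.Em * eu x.Ob) * Ring.inverse (oh _ (eu x.Nm))
lemma W_mul : x.W * oh _ (eu x.Nm) = oh _ (x.X0 * eu x.Em * eu x.Ob) := by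
  rw [W, mul_assoc, Ring.inverse_mul_cancel _ (isUnit_oh_eu x.hw x.hNm), mul_one]
/-- numeric functional -/
def L : Oh x.F →+ Lh := (fhat (numF x.F)).toAddMonoidHom.comp (AddMonoidHom.mulRight x.W)
/-- surface-valued functional -/
def Γ : Oh x.F →+ Mh (G S) :=
  (fhat (srfF x.F S (op _ x.σ))).toAddMonoidHom.comp (AddMonoidHom.mulRight x.W)
lemma L_apply (z : Oh x.F) : x.L z = fhat (numF x.F) (z * x.W) := rfl
lemma Γ_apply (z : Oh x.F) : x.Γ z = fhat (srfF x.F S (op _ x.σ)) (z * x.W) := rfl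
/-- the formal data at the point `p` -/
def lev (p : Pt) : Lev (Oh x.F) Lh (Mh (G S)) where
  a1 := oh _ (op _ x.l1.kl)
  a2 := oh _ (op _ x.l2.kl)
  m1 := 1
  m2 := oh _ (tO x.F 1)
  l0 := oh _ (tO x.F (-1))
  A1 := (chp (x.U1 p) (x.r1 + 1)).map (oh _)
  B1 := (chp (x.B1 p) x.r1).map (oh _)
  A2 := (chp (x.U2 p) (x.r2 + 1)).map (oh _)
  B2 := (chp (x.B2 p) x.r2).map (oh _)
  L := x.L
  Γ := x.Γ
lemma lev_swap (p : Pt) : x.swap.lev p = (x.lev p).swap := rfl
lemma same (p q : Pt) : (x.lev p).Same (x.lev q) := ⟨rfl, rfl, rfl, rfl, rfl, rfl, rfl⟩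
end Piece

/-- push-forward along the point with class `a` -/
def vv (a : G S) : Lh →+ Mh (G S) := (vhat a).toAddMonoidHom

/-- evaluation at `t = 1` -/
def ev1 : La →+* ℤ := LaurentPolynomial.eval₂ (RingHom.id ℤ) 1

end Crest.Agent.N265.Top
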