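import Crest.Agent.N265.Top.Lev

/-! # Row 265: from `K`-identities to the formal nested data -/

set_option autoImplicit false
noncomputable section
open Polynomial

namespace Crest.Agent.N265.Top
open Bun Formal
variable {S X N : Spc}

lemma dvd_pow_of_nil {R : Type*} [CommRing R] {a c : R} (h : IsNilpotent (a - c)) (J : ℕ) :
    ∃ J', (Polynomial.X - C c) ^ J ∣ (Polynomial.X - C a) ^ J' := by
  let I : Ideal R[X] := Ideal.span {(Polynomial.X - C c) ^ J}
  have h1 : IsNilpotent (Ideal.Quotient.mk I (Polynomial.X - C c)) :=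
    ⟨J, by rw [← map_pow, Ideal.Quotient.eq_zero_iff_mem]; exact Ideal.subset_span rfl⟩
  have h2 : IsNilpotent (Ideal.Quotient.mk I (C (a - c))) := (h.map C).map _
  obtain ⟨J', hJ⟩ := (Commute.all _ _).isNilpotent_sub h1 h2
  refine ⟨J', Ideal.mem_span_singleton.1 ?_⟩
  rw [← Ideal.Quotient.eq_zero_iff_mem, map_pow, ← hJ, ← map_sub, map_sub C]
  congr 2; ring

lemma mon_chp {A : Bun X} {r : ℕ} (h : A.Rk r) : Formal.Mon r (chp A r) :=
  ⟨chp_coeff_rk h, fun _ hk => coeff_eq_zero_of_natDegree_lt ((chp_natDegree_le h).trans_lt hk)⟩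

lemma op_mul_dual {l : Bun X} (h : l.Rk 1) : op X l.kl * op X (K.dual X l.kl) = 1 := by
  rw [← map_mul, h.mul_dual, map_one]
lemma isUnit_op {l : Bun X} (h : l.Rk 1) : IsUnit (op X l.kl) :=
  IsUnit.of_mul_eq_one _ (op_mul_dual h)

lemma cls_of {U B l : Bun X} {r : ℕ} {w : ℕ → ℤ} (hw : X.TTriv w) {k : ℤ} (hU : U.Rk (r + 1))
    (hB : B.Rk r) (hl : l.Rk 1) (pU : U.Pure w k) (pB : B.Pure w k) (pl : l.Pure w k)
    (hd : (U.det _ hU).kl = l.kl * (B.det _ hB).kl) :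
    ∃ J, Cls J (oh X (op X l.kl)) ((chp U (r + 1)).map (oh X)) ((chp B r).map (oh X)) := by
  obtain ⟨J1, h1⟩ := chp_dvd_pow hU hw pU
  obtain ⟨J2, h2⟩ := chp_dvd_pow hB hw pB
  have hn := isNilpotent_rk_one hl hw pl
  obtain ⟨J3, h3⟩ := dvd_pow_of_nil hn J1
  obtain ⟨J4, h4⟩ := dvd_pow_of_nil hn J2
  have key : ∀ {p : (Op X)[X]} {J : ℕ}, p ∣ (Polynomial.X - C (op X l.kl)) ^ J →
      p.map (oh X) ∣ (Polynomial.X - C (oh X (op X l.kl))) ^ J := fun {p J} h => by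
    simpa using Polynomial.map_dvd (oh X) h
  refine ⟨J3 + J4, ⟨r, (mon_chp hU).map _, (mon_chp hB).map _⟩,
    key ((h1.trans h3).trans (pow_dvd_pow _ (by omega))),
    key ((h2.trans h4).trans (pow_dvd_pow _ (by omega))), ?_⟩
  rw [← coeff_zero_eq_eval_zero, ← coeff_zero_eq_eval_zero, coeff_map, coeff_map,
    chp_coeff_zero hU, chp_coeff_zero hB, hd, ← map_neg, ← map_mul, map_mul (op X)]
  congr 1; ring

lemma tO_zero : tO X 0 = 1 := by rw [tO, zero_smul, lb_zero]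
lemma tO_add (a b : ℤ) : tO X (a + b) = tO X a * tO X b := by rw [tO, add_smul, lb_add]
lemma tO_one_mul : tO X 1 * tO X (-1) = 1 := by rw [← tO_add, add_neg_cancel, tO_zero]
lemma pull_tO {Y : Spc} (h : Proj Y X) (k : ℤ) : Op.pull h (tO X k) = tO Y k :=
  Op.pull_lb h (zsmul_mem (eT_mem _) k)
lemma one_sub_T_mem {k : ℤ} (hk : k ≠ 0) : (1 - LaurentPolynomial.T k : La) ∈ Mov :=
  Submonoid.subset_closure ⟨k, hk, rfl⟩
lemma isUnit_one_sub_t : IsUnit (oh X (1 - tO X 1)) := by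
  have := isUnit_oh_tHom (X := X) (one_sub_T_mem one_ne_zero)
  rwa [map_sub, map_one, tHom_T] at this

theorem Piece.ok (x : Piece S) {p : Pt} (hp : p ∈ S.pts) : ∃ J, (x.lev p).Ok J := by
  obtain ⟨J1, h1⟩ := cls_of x.hw (x.rU1 p hp) (x.rB1 p hp) x.rl1 (x.pU1 p hp) (x.pB1 p hp) x.pl1
    (x.det1 p hp)
  obtain ⟨J2, h2⟩ := cls_of x.hw (x.rU2 p hp) (x.rB2 p hp) x.rl2 (x.pU2 p hp) (x.pB2 p hp) x.pl2
    (x.det2 p hp)
  refine ⟨J1 + J2, h1.mono (by omega), h2.mono (by omega), (isUnit_op x.rl1).map _,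
    (isUnit_op x.rl2).map _, ?_⟩
  have n1 := isNilpotent_rk_one x.rl1 x.hw x.pl1
  have n2 := isNilpotent_rk_one x.rl2 x.hw x.pl2
  have n3 := ((Commute.all _ _).isNilpotent_sub n1 n2).map (oh x.F)
  have u : IsUnit (oh x.F (tO x.F x.k1 - tO x.F x.k2)) := by
    rcases x.hk with h | h <;> rw [h.1, h.2, tO_zero]
    · exact isUnit_one_sub_t
    · rw [← neg_sub, map_neg]; exact isUnit_one_sub_t.neg
  have := n3.isUnit_add_left_of_commute u (Commute.all _ _)
  convert this using 1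
  simp only [Piece.lev, map_sub, tO]; ring

/-! ### Euler classes -/

lemma eu_list (l : List (Bun X)) : ∃ A : Bun X, A.kl = (l.map Bun.kl).sum ∧
    eu A = (l.map eu).prod := by
  induction l with
  | nil =>
    refine ⟨Bun.zero X, kl_zero, ?_⟩
    have := Lam_of_kl_sum (A := Bun.zero X) (∅ : Finset Unit) (fun _ => 0) (by simp [kl_zero])
    simp [eu, this]
  | cons a l ih =>
    obtain ⟨A, h1, h2⟩ := ih
    exact ⟨a.sum A, by simp [kl_sum, h1], by simp [eu_add (kl_sum a A), h2]⟩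
lemma eu_eq_of_list {l l' : List (Bun X)} (h : (l.map Bun.kl).sum = (l'.map Bun.kl).sum) :
    (l.map eu).prod = (l'.map eu).prod := by
  obtain ⟨A, h1, h2⟩ := eu_list l
  obtain ⟨A', h1', h2'⟩ := eu_list l'
  rw [← h2, ← h2', eu_congr (h1.trans (h.trans h1'.symm))]

lemma exists_dual_rk {A : Bun X} {r : ℕ} (h : A.Rk r) :
    ∃ A' : Bun X, A'.kl = K.dual X A.kl ∧ A'.Rk r := by
  obtain ⟨A', h1, h2⟩ := A.exists_dual
  exact ⟨A', h1, fun x hx => (h2 x hx).trans (h x hx)⟩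

/-- `eu(ℓ⁻¹ A)` -/
lemma eu_dual_tens {A l l' : Bun X} {r : ℕ} (hA : A.Rk r) (hl' : l'.Rk 1)
    (e : l'.kl = K.dual X l.kl) : (chp A r).eval (op X l.kl) =
      (-1) ^ r * op X (A.det r hA).kl * eu (l'.tens A) := by
  rw [eu_tens hl' (kl_tens l' A), e, K.dual_dual, chp_eq hA, eval_mul, eval_C]
/-- `eu(ℓ A^∨)` -/
lemma eu_tens_dual {A A' l : Bun X} {r : ℕ} (hA : A.Rk r) (hl : l.Rk 1)
    (e : A'.kl = K.dual X A.kl) : (chp A r).eval (op X l.kl) = eu (l.tens A') * op X l.kl ^ r := by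
  rw [eu_tens hl (kl_tens l A'), Lam_dual hA e]
  let _ : Invertible (op X l.kl) :=
    ⟨op X (K.dual X l.kl), by rw [mul_comm]; exact op_mul_dual hl, op_mul_dual hl⟩
  exact (eval₂_reflect_mul_pow (RingHom.id _) (op X l.kl) r _ (chp_natDegree_le hA)).symm
/-- `eu(ℓ⁻¹ t^k)` -/
lemma eu_dual_t {l l' : Bun X} (hl' : l'.Rk 1) (e : l'.kl = K.dual X l.kl) (k : ℤ) :
    eu (l'.tens (line X (k • eT))) = 1 - tO X (-k) * op X l.kl := by
  rw [eu_tens hl' (kl_tens l' _), e, K.dual_dual, Lam_rk_one (rk_line _)]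
  have : K.dual X (line X (k • eT)).kl = lbK X ((-k) • eT) := by
    rw [neg_smul]; exact K.dual_lbK _
  rw [this]; simp [lb, tO]

lemma eval_chp_pull (π : Proj N X) {A : Bun X} {r : ℕ} (h : A.Rk r) (e : Op N) :
    ((chp A r).map (oh X)).eval₂ (Oh.pull π) (oh N e) = oh N ((chp (A.pull π) r).eval e) := by
  rw [chp_pull π h, eval_map, eval₂_map, hom_eval₂]
  congr 1
  exact RingHom.ext fun u => Oh.pull_oh π u

variable {x y : Piece S} {p : Pt} {v : K S} {π : Proj N x.F} {π' : Proj N y.F} {l : Bun N}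

/-- the ratio of the virtual weights -/
theorem NestK.ratio (h : NestK x y p v N π π' l) (hp : p ∈ S.pts) :
    oh N (op N l.kl) * (x.lev p).A2.eval₂ (Oh.pull π) (oh N (op N l.kl)) ^ 2 * Oh.pull π' y.W =
      -((x.lev p).P.eval₂ (Oh.pull π) (oh N (op N l.kl)) *
        (x.lev p).B2.eval₂ (Oh.pull π) (oh N (op N l.kl)) ^ 2 *
        Oh.pull π ((x.lev p).a2 * (x.lev p).l0 * x.W)) := by
  obtain ⟨l', el', hl'⟩ := exists_dual_rk h.rl
  have hU := (x.rU2 p hp).pull π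
  have hB := (x.rB2 p hp).pull π
  obtain ⟨U', eU', -⟩ := exists_dual_rk hU
  obtain ⟨B', eB', -⟩ := exists_dual_rk hB
  have E1 := eu_eq_of_list
    (l := [y.Nm.pull π', x.Em.pull π, l'.tens ((x.B2 p).pull π), l'.tens (line N (x.k2 • eT)),
      l.tens B'])
    (l' := [x.Nm.pull π, y.Em.pull π', l'.tens ((x.U2 p).pull π), l.tens U']) (by
      have := h.mov
      simp only [map_sub, K.pull_kl] at this
      simp only [List.map_cons, List.map_nil, List.sum_cons, List.sum_nil, kl_tens, el', eU', eB']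
      change _ + (_ + (_ + (_ * tK N x.k2 + _))) = _
      linear_combination this)
  have E2 : eu (y.Ob.pull π') = eu (x.Ob.pull π) * eu (l'.tens (line N (x.k1 • eT))) :=
    eu_add (by rw [← K.pull_kl, ← K.pull_kl, h.ob, kl_tens, el']; rfl)
  simp only [List.map_cons, List.map_nil, List.prod_cons, List.prod_nil, eu_pull,
    eu_dual_t hl' el'] at E1 E2
  have A1 := eu_dual_tens hU hl' el'
  have A2 := eu_tens_dual hU h.rl eU'
  have B1 := eu_dual_tens hB hl' el'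
  have B2 := eu_tens_dual hB h.rl eB'
  have D : op N (((x.U2 p).pull π).det _ hU).kl =
      Op.pull π (op _ x.l2.kl) * op N (((x.B2 p).pull π).det _ hB).kl := by
    rw [← kl_det_pull π _ _ (x.rU2 p hp), ← kl_det_pull π _ _ (x.rB2 p hp), x.det2 p hp, map_mul,
      map_mul, Op.pull_op]
  have T : (1 - tO N (-x.k1) * op N l.kl) * (1 - tO N (-x.k2) * op N l.kl) =
      (op N l.kl - 1) * (op N l.kl - tO N 1) * tO N (-1) := by
    have := tO_one_mul (X := N)
    rcases x.hk with e | e <;> rw [e.1, e.2, neg_zero, tO_zero] <;>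
      linear_combination (1 - op N l.kl) * (-1) * this
  have key : op N l.kl * (chp ((x.U2 p).pull π) (x.r2 + 1)).eval (op N l.kl) ^ 2 *
      Op.pull π' (y.X0 * eu y.Em * eu y.Ob) * Op.pull π (eu x.Nm) =
      -((op N l.kl - 1) * (op N l.kl - tO N 1) * (chp ((x.B2 p).pull π) x.r2).eval (op N l.kl) ^ 2 *
        (Op.pull π (op _ x.l2.kl) * tO N (-1) * Op.pull π (x.X0 * eu x.Em * eu x.Ob))
        * Op.pull π' (eu y.Nm)) := by
    rw [sq, sq]
    nth_rewrite 1 [A1]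
    nth_rewrite 1 [B1]
    rw [A2, B2, D, map_mul, map_mul, map_mul, map_mul, E2, ← h.X0]
    generalize op N (((x.B2 p).pull π).det _ hB).kl = dB at *
    have s : ((-1 : Op N) ^ (x.r2 + 1)) = -(-1) ^ x.r2 := by ring
    rw [s, pow_succ (op N l.kl) x.r2]
    linear_combination (exp := 1)
      ((-1) ^ x.r2 * dB * Op.pull π (op _ x.l2.kl) * op N l.kl ^ x.r2 * op N l.kl ^ 2 *
        Op.pull π' y.X0 * Op.pull π (eu x.Ob) * (1 - tO N (-x.k1) * op N l.kl)) * E1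
      - ((-1) ^ x.r2 * dB * Op.pull π (op _ x.l2.kl) * op N l.kl ^ x.r2 * op N l.kl ^ 2 *
        Op.pull π' y.X0 * Op.pull π (eu x.Ob) * Op.pull π' (eu y.Nm) * Op.pull π (eu x.Em) *
        eu (l'.tens ((x.B2 p).pull π)) * eu (l.tens B')) * T
  have u1 : IsUnit (Oh.pull π (oh _ (eu x.Nm))) := (isUnit_oh_eu x.hw x.hNm).map _
  have u2 : IsUnit (Oh.pull π' (oh _ (eu y.Nm))) := (isUnit_oh_eu y.hw y.hNm).map _
  have w1 := congrArg (Oh.pull π) x.W_mul
  have w2 := congrArg (Oh.pull π') y.W_mul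
  have k2 := congrArg (oh N) key
  have hP : (x.lev p).P.eval₂ (Oh.pull π) (oh N (op N l.kl)) =
      oh N ((op N l.kl - 1) * (op N l.kl - tO N 1)) := by
    simp [Lev.P, Piece.lev, eval₂_mul, eval₂_sub, Oh.pull_oh, pull_tO]
  rw [hP]
  simp only [Piece.lev]
  rw [eval_chp_pull π (x.rU2 p hp), eval_chp_pull π (x.rB2 p hp)]
  refine (u1.mul u2).mul_right_cancel ?_
  rw [map_mul, Oh.pull_oh, Oh.pull_oh] at w1 w2
  rw [map_mul (Oh.pull π), map_mul (Oh.pull π), Oh.pull_oh, Oh.pull_oh, Oh.pull_oh, Oh.pull_oh,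
    pull_tO]
  simp only [map_mul (oh N), map_neg (oh N), map_pow (oh N)] at k2 ⊢
  generalize oh N (Op.pull π (x.X0 * eu x.Em * eu x.Ob)) = c at *
  generalize oh N (Op.pull π' (y.X0 * eu y.Em * eu y.Ob)) = c' at *
  subst w1 w2
  linear_combination k2

end Crest.Agent.N265.Top
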