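import Crest.Agent.N265.Top.Nest

/-! # Row 265: `NestK → Nest`, `Model → Hecke` -/

set_option autoImplicit false
noncomputable section
open Polynomial

namespace Crest.Agent.N265.Top
open Bun Formal
variable {S X N : Spc}

/-- `a ↦ pr_{S*}(σ · (a ⊠ O_S))` -/
def srfG (X S : Spc) (h : Disjoint X.B S.B) (σ : Op (X.fib S)) : G X →ₗ[La] G S where
  toFun a := push (X.fib S) S (σ • box X S a)
  map_add' a b := by rw [map_add, smul_add, map_add]
  map_smul' p a := by
    rw [La_smul, box_smul h, Op.pull_tHom, smul_smul, mul_comm, mul_smul,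
      ← Op.pull_tHom (Spc.fib_snd X S), push_smul]; rfl
lemma srfG_apply (h : Disjoint X.B S.B) (σ : Op (X.fib S)) (a : G X) :
    srfG X S h σ a = push (X.fib S) S (σ • box X S a) := rfl
lemma srfF_eq (h : Disjoint X.B S.B) (σ : Op (X.fib S)) (u : Op X) :
    srfF X S σ u = srfG X S h σ (u • one X) := by
  rw [srfF_apply, srfG_apply, box_smul h, box_one h, smul_smul, smul_smul, mul_comm]
lemma srfG_push (π : Proj N X) (hN : Disjoint N.B S.B) (h : Disjoint X.B S.B) (σ : Op (X.fib S))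
    (a : G N) : srfG N S hN (Op.pull (π.fib_map S) σ) a = srfG X S h σ (push N X a) := by
  rw [srfG_apply, srfG_apply, ← push_box π hN, ← push_smul (π.fib_map S),
    push_push (π.fib_map S) (Spc.fib_snd X S)]

/-- push formulas pass to localised functionals -/
lemma transfer {M : Type*} [AddCommGroup M] [Module La M] (π : Proj N X) (Ψ : G X →ₗ[La] M)
    (ΦN : Op N →ₗ[La] M) (ΦX : Op X →ₗ[La] M) (hN : ∀ u, ΦN u = Ψ (push N X (u • one N)))
    (hX : ∀ u, ΦX u = Ψ (u • one X)) (e c : Op N) {D E : (Op X)[X]} (hD : D.Monic)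
    (h : ∀ φ : (Op X)[X], push N X ((φ.eval₂ (Op.pull π) e * c) • one N) = res D (φ * E) • one X)
    (g : (Oh X)[X]) (z : Oh X) :
    fhat ΦN (g.eval₂ (Oh.pull π) (oh N e) * oh N c * Oh.pull π z) =
      fhat ΦX (res (D.map (oh X)) (g * E.map (oh X)) * z) := by
  induction g using Polynomial.induction_on' with
  | add p q hp hq =>
    rw [eval₂_add, add_mul, add_mul, map_add, hp, hq, add_mul, res_add, add_mul, map_add]
  | monomial k a =>
    have H := fhat_pull π ΦN ΦX (e ^ k * c) (res D (Polynomial.X ^ k * E)) (fun u => by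
      rw [hN, hX, mul_smul, push_smul, mul_smul u, ← h]; simp) (a * z)
    rw [← C_mul_X_pow_eq_monomial, mul_assoc (C a), res_C_mul]
    have e1 : (Polynomial.X : (Oh X)[X]) ^ k * E.map (oh X) = (Polynomial.X ^ k * E).map (oh X) := by
      simp
    rw [e1, res_map _ hD, mul_right_comm a, ← H]
    congr 1
    simp only [eval₂_mul, eval₂_C, eval₂_X_pow, map_mul, map_pow]; ring

lemma map_chp_pull (π : Proj N X) {A : Bun X} {r : ℕ} (h : A.Rk r) :
    ((chp A r).map (oh X)).map (Oh.pull π) = (chp (A.pull π) r).map (oh N) := by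
  rw [chp_pull π h, Polynomial.map_map, Polynomial.map_map]
  congr 1
  exact RingHom.ext fun u => Oh.pull_oh π u

variable {x y : Piece S} {p : Pt} {v : K S} {π : Proj N x.F} {π' : Proj N y.F} {l : Bun N}

theorem NestK.nest (h : NestK x y p v N π π' l) (hp : p ∈ S.pts) :
    Nest (x.lev p) (y.lev p) (vv (v • one S)) (Oh.pull π) (Oh.pull π') (oh N (op N l.kl))
      ((fhat (numF N)).toAddMonoidHom.comp (AddMonoidHom.mulRight (Oh.pull π' y.W)))
      ((fhat (srfF N S (Op.pull (π'.fib_map S) (op _ y.σ)))).toAddMonoidHom.comp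
        (AddMonoidHom.mulRight (Oh.pull π' y.W))) := by
  have a1 : Oh.pull π (x.lev p).a1 = Oh.pull π' (y.lev p).a1 := by
    simp only [Piece.lev, Oh.pull_oh, Op.pull_op, h.l1]
  have hnum : ∀ {X : Spc} (q : Proj N X) (u : Op N), numF N u = eulL X (push N X (u • one N)) :=
    fun q u => (eul_push q _).symm
  have hsrf : ∀ {X : Spc} (q : Proj N X) (hX : Disjoint X.B S.B) (σ : Op (X.fib S)) (u : Op N),
      srfF N S (Op.pull (q.fib_map S) σ) u = srfG X S hX σ (push N X (u • one N)) :=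
    fun q hX σ u => by rw [srfF_eq h.dis, srfG_push q]
  have z1 : ∀ φ : (Op y.F)[X], push N y.F ((φ.eval₂ (Op.pull π') (op N l.kl) *
      (op N l.kl * Op.pull π' (op _ y.l1.kl))) • one N) =
      res (chp (y.B1 p) y.r1) (φ * chp (y.U1 p) (y.r1 + 1)) • one y.F := fun φ => by
    rw [← mul_assoc]; exact h.z1 φ
  have z2 : ∀ φ : (Op x.F)[X], push N x.F ((φ.eval₂ (Op.pull π) (op N l.kl) * 1) • one N) =
      res (chp (x.U1 p) (x.r1 + 1)) (φ * chp (x.B1 p) x.r1) • one x.F :=
    fun φ => by rw [mul_one]; exact h.z2 φ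
  have mB := chp_monic (y.rB1 p hp)
  have mU := chp_monic (x.rU1 p hp)
  have e1 : ∀ g : (Oh y.F)[X], g.eval₂ (Oh.pull π') (oh N (op N l.kl)) * oh N (op N l.kl) *
      Oh.pull π (x.lev p).a1 * Oh.pull π' y.W = g.eval₂ (Oh.pull π') (oh N (op N l.kl)) *
        oh N (op N l.kl * Op.pull π' (op _ y.l1.kl)) * Oh.pull π' y.W := fun g => by
    rw [a1, map_mul (oh N), ← Oh.pull_oh, ← mul_assoc]; rfl
  have e2 : ∀ g : (Oh x.F)[X], g.eval₂ (Oh.pull π) (oh N (op N l.kl)) * oh N (op N l.kl) *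
      (x.lev p).A2.eval₂ (Oh.pull π) (oh N (op N l.kl)) ^ 2 * Oh.pull π' y.W =
      -((g * (x.lev p).P * (x.lev p).B2 ^ 2).eval₂ (Oh.pull π) (oh N (op N l.kl)) * oh N 1 *
        Oh.pull π ((x.lev p).a2 * (x.lev p).l0 * x.W)) := fun g => by
    have := h.ratio hp
    rw [eval₂_mul, eval₂_mul, eval₂_pow, map_one]
    linear_combination g.eval₂ (Oh.pull π) (oh N (op N l.kl)) * this
  have L2 : ∀ g : (Oh x.F)[X], fhat (numF N) (g.eval₂ (Oh.pull π) (oh N (op N l.kl)) *
      oh N (op N l.kl) * (x.lev p).A2.eval₂ (Oh.pull π) (oh N (op N l.kl)) ^ 2 * Oh.pull π' y.W) =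
      -(x.lev p).L ((x.lev p).a2 * (x.lev p).l0 *
        res (x.lev p).A1 (g * (x.lev p).P * (x.lev p).B1 * (x.lev p).B2 ^ 2)) := fun g => by
    rw [e2, map_neg, transfer π (eulL _) _ (numF x.F) (hnum π) (fun _ => rfl) _ _ mU z2]
    congr 1
    change _ = fhat _ _
    congr 1
    rw [mul_right_comm (g * _) (x.lev p).B1]
    simp only [Piece.lev, AddMonoidHom.coe_mulRight]; ring
  refine ⟨a1, ?_, ?_, ?_, ?_, ?_, ?_, ?_, fun g => ?_, fun g => ?_, L2, fun g => ?_⟩
  · simp only [Piece.lev, Oh.pull_oh, Op.pull_op, h.l2]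
  · simp only [Piece.lev, map_one]
  · simp only [Piece.lev, Oh.pull_oh, pull_tO]
  · simp only [Piece.lev, Oh.pull_oh, pull_tO]
  · simp only [Piece.lev]
    rw [map_chp_pull π (x.rU1 p hp), map_chp_pull π' (y.rB1 p hp), map_chp_pull π' (y.rU1 p hp),
      map_chp_pull π (x.rB1 p hp), ← Polynomial.map_mul, ← Polynomial.map_mul,
      chp_add_add ((x.rU1 p hp).pull π) ((y.rB1 p hp).pull π') ((y.rU1 p hp).pull π')
        ((x.rB1 p hp).pull π) (by omega) (by simpa only [K.pull_kl] using h.p1)]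
  · simp only [Piece.lev]
    rw [map_chp_pull π (x.rU2 p hp), map_chp_pull π' (y.rB2 p hp), map_chp_pull π' (y.rU2 p hp),
      map_chp_pull π (x.rB2 p hp), ← Polynomial.map_mul, ← Polynomial.map_mul,
      chp_add_add ((x.rU2 p hp).pull π) ((y.rB2 p hp).pull π') ((y.rU2 p hp).pull π')
        ((x.rB2 p hp).pull π) (by omega) (by simpa only [K.pull_kl] using h.p2)]
  · simp only [Piece.lev]
    rw [eval_chp_pull π (x.rU1 p hp), chp_pull π (x.rU1 p hp), eval_map, h.root, map_zero]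
  · change fhat (numF N) (_ * _) = _
    rw [e1, transfer π' (eulL _) _ (numF y.F) (hnum π') (fun _ => rfl) _ _ mB z1]; rfl
  · change fhat (srfF N S _) (_ * _) = _
    rw [e1, transfer π' (srfG _ S y.dis (op _ y.σ)) _ (srfF y.F S (op _ y.σ)) (hsrf π' y.dis _)
      (srfF_eq y.dis _) _ _ mB z1]; rfl
  · change fhat (srfF N S _) (_ * _) = _
    have hσ : fhat (srfF N S (Op.pull (π'.fib_map S) (op _ y.σ))) =
        fhat (srfF N S (Op.pull (π.fib_map S) (op _ x.σ))) - (vhat (v • one S)) ∘ₗ fhat (numF N) ∘ₗ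
          LinearMap.mulRight La (oh N (op N l.kl)) := Oh.lin_ext fun u => by
      simp only [LinearMap.sub_apply, LinearMap.comp_apply, LinearMap.mulRight_apply]
      rw [← map_mul, fhat_oh, fhat_oh, fhat_oh, vhat_toMh, ← map_sub, Op.pull_op, h.σ, map_sub,
        srfF_apply, srfF_apply, sub_smul, smul_sub, map_sub, Op.pull_op, map_mul,
        ← Op.pull_op (Spc.fib_fst N S), ← Op.pull_op (Spc.fib_snd N S),
        mul_comm (Op.pull (Spc.fib_fst N S) _), mul_smul,
        smul_comm (Op.pull (Spc.fib_fst N S) u) (Op.pull (Spc.fib_snd N S) _), push_smul,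
        smul_smul (Op.pull (Spc.fib_fst N S) u) (Op.pull (Spc.fib_fst N S) _), ← map_mul, ← box_one h.dis,
        ← box_smul h.dis, push_box_snd h.dis, numF_apply, ← op_smul v, La_smul, La_smul,
        smul_comm (op S v)]
    have L3 := L2 (Polynomial.X * g)
    rw [hσ]
    simp only [LinearMap.sub_apply, LinearMap.comp_apply, LinearMap.mulRight_apply]
    rw [sub_eq_add_neg, ← map_neg (vhat _)]
    congr 1
    · rw [e2, map_neg, transfer π (srfG _ S x.dis (op _ x.σ)) _ (srfF x.F S (op _ x.σ))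
        (hsrf π x.dis _) (srfF_eq x.dis _) _ _ mU z2]
      congr 1
      change _ = fhat _ _
      congr 1
      rw [mul_right_comm (g * _) (x.lev p).B1]
      simp only [Piece.lev, AddMonoidHom.coe_mulRight]; ring
    · change vhat _ _ = vhat _ _
      congr 1
      rw [← neg_neg ((x.lev p).L _), ← L3, eval₂_mul, eval₂_X]
      congr 2; ring

theorem HasNestK.hasNest (h : HasNestK x y p v) (hp : p ∈ S.pts) :
    HasNest (x.lev p) (y.lev p) (vv (v • one S)) := by
  obtain ⟨N, π, π', l, h⟩ := h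
  exact ⟨Oh N, inferInstance, _, _, _, _, _, h.nest hp⟩

lemma bot_of {U B l : Bun X} {r : ℕ} (hB : B.Rk r) (hl : l.Rk 1) (h : U.kl = l.kl + B.kl) :
    (chp U (r + 1)).map (oh X) =
      (Polynomial.X - C (oh X (op X l.kl))) * (chp B r).map (oh X) := by
  rw [add_comm r 1, chp_add hl hB h, chp_rk_one hl]; simp

theorem Model.hecke {hS} (M : Model S hS) (φ : M.Φ) {p : Pt} (hp : p ∈ S.pts) :
    ∃ J, ∀ J' ≥ J, Hecke (M.ν φ) J' (fun n => (M.x φ n).lev p) (vv (ptc S hS p hp)) := by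
  choose J hJ using fun n => (M.x φ n).ok hp
  refine ⟨(Finset.range (M.ν φ + 1) ×ˢ Finset.range (M.ν φ + 1)).sup J, fun J' hJ' => ?_⟩
  rw [← M.hv p hp]
  refine ⟨fun n hn => ?_, fun k hk => ?_, fun k hk => ?_, fun i j hij => ?_, fun i j hij => ?_⟩
  · have : J n ≤ J' := le_trans (Finset.le_sup (f := J) (by
      simp only [Finset.mem_product, Finset.mem_range]; omega)) hJ'
    exact ⟨(hJ n).c1.mono this, (hJ n).c2.mono this, (hJ n).u1, (hJ n).u2, (hJ n).ud⟩
  · exact bot_of ((M.x φ _).rB1 p hp) (M.x φ _).rl1 (M.bot1 φ k hk p hp)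
  · exact bot_of ((M.x φ _).rB2 p hp) (M.x φ _).rl2 (M.bot2 φ k hk p hp)
  · exact (M.up1 φ i j hij p hp).hasNest hp
  · exact (M.up2 φ i j hij p hp).hasNest hp

end Crest.Agent.N265.Top
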